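import Vale.Agent.P236.H68.Gen

/-!
The untyped cobar complex: polynomials over `ZMod 3` in variables `(s, k)`, slot `s`, generator
`ξ_(k+1)`.
-/

namespace Vale.Agent.P236.H68

open Finset

/-- the big polynomial ring -/
abbrev RR : Type := MvPolynomial (ℕ × ℕ) (ZMod 3)

/-- composition law of sequences `(1, g 1, g 2, ...)` -/
def mulS {R : Type*} [CommSemiring R] (g h : ℕ → R) (k : ℕ) : R :=
  ∑ ab ∈ antidiagonal k, g ab.1 ^ (3 ^ ab.2) * h ab.2

theorem mulS_zero {R : Type*} [CommSemiring R] (g h : ℕ → R) : mulS g h 0 = g 0 * h 0 := by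
  simp [mulS]

theorem map_mulS {R S : Type*} [CommSemiring R] [CommSemiring S] (f : R →+* S) (g h : ℕ → R)
    (k : ℕ) : f (mulS g h k) = mulS (fun i => f (g i)) (fun i => f (h i)) k := by
  simp [mulS, map_sum, map_mul, map_pow]

theorem mulS_assoc {R : Type*} [CommRing R] [CharP R 3] (g h l : ℕ → R) :
    mulS (mulS g h) l = mulS g (mulS h l) := by
  have : Fact (Nat.Prime 3) := ⟨by norm_num⟩
  have : ExpChar R 3 := ExpChar.prime (by norm_num)
  funext k
  have h1 : mulS (mulS g h) l k = ∑ ab ∈ antidiagonal k, ∑ ce ∈ antidiagonal ab.1,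
      g ce.1 ^ (3 ^ (ce.2 + ab.2)) * h ce.2 ^ (3 ^ ab.2) * l ab.2 := by
    refine Finset.sum_congr rfl fun ab _ => ?_
    rw [mulS, sum_pow_char_pow, Finset.sum_mul]
    refine Finset.sum_congr rfl fun ce _ => ?_
    rw [mul_pow, ← pow_mul, ← pow_add]
  have h2 : mulS g (mulS h l) k = ∑ cf ∈ antidiagonal k, ∑ eb ∈ antidiagonal cf.2,
      g cf.1 ^ (3 ^ (eb.1 + eb.2)) * h eb.1 ^ (3 ^ eb.2) * l eb.2 := by
    refine Finset.sum_congr rfl fun cf _ => ?_
    rw [mulS, Finset.mul_sum]
    refine Finset.sum_congr rfl fun eb heb => ?_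
    rw [HasAntidiagonal.mem_antidiagonal.1 heb]
    ring
  rw [h1, h2]
  rw [Finset.sum_sigma', Finset.sum_sigma']
  refine Finset.sum_nbij' (fun x => ⟨(x.2.1, x.2.2 + x.1.2), (x.2.2, x.1.2)⟩)
    (fun x => ⟨(x.1.1 + x.2.1, x.2.2), (x.1.1, x.2.1)⟩) ?_ ?_ ?_ ?_ ?_
  · rintro ⟨⟨a, b⟩, ⟨c, e⟩⟩ hx
    simp only [mem_sigma, HasAntidiagonal.mem_antidiagonal] at hx
    obtain ⟨h1, h2⟩ := hx
    simp only [mem_sigma, HasAntidiagonal.mem_antidiagonal, and_true]
    omega
  · rintro ⟨⟨a, b⟩, ⟨c, e⟩⟩ hx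
    simp only [mem_sigma, HasAntidiagonal.mem_antidiagonal] at hx
    obtain ⟨h1, h2⟩ := hx
    simp only [mem_sigma, HasAntidiagonal.mem_antidiagonal, and_true]
    omega
  · rintro ⟨⟨a, b⟩, ⟨c, e⟩⟩ hx
    simp only [mem_sigma, HasAntidiagonal.mem_antidiagonal] at hx
    obtain ⟨h1, h2⟩ := hx
    subst h2
    rfl
  · rintro ⟨⟨a, b⟩, ⟨c, e⟩⟩ hx
    simp only [mem_sigma, HasAntidiagonal.mem_antidiagonal] at hx
    obtain ⟨h1, h2⟩ := hx
    subst h2
    rfl
  · rintro ⟨⟨a, b⟩, ⟨c, e⟩⟩ hx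
    rfl

/-- the `i`-th face of a tuple of sequences -/
def face {R : Type*} [CommSemiring R] (i : ℕ) (g : ℕ → ℕ → R) (s : ℕ) : ℕ → R :=
  if s + 1 < i then g s else if s + 1 = i then mulS (g s) (g (s + 1)) else g (s + 1)

theorem face_zero_idx {R : Type*} [CommSemiring R] (i : ℕ) (g : ℕ → ℕ → R)
    (hg : ∀ s, g s 0 = 1) (s : ℕ) : face i g s 0 = 1 := by
  unfold face
  split_ifs
  · exact hg s
  · rw [mulS_zero, hg, hg, one_mul]
  · exact hg _

theorem map_face {R S : Type*} [CommSemiring R] [CommSemiring S] (f : R →+* S) (i : ℕ)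
    (g : ℕ → ℕ → R) (s k : ℕ) : f (face i g s k) = face i (fun s k => f (g s k)) s k := by
  unfold face
  split_ifs
  · rfl
  · rw [map_mulS]
  · rfl

theorem face_face {R : Type*} [CommRing R] [CharP R 3] (i j : ℕ) (hij : i ≤ j)
    (g : ℕ → ℕ → R) : face i (face (j + 1) g) = face j (face i g) := by
  funext s
  unfold face
  rcases lt_trichotomy (s + 1) i with h | h | h
  · have a1 : s + 1 < j + 1 := by omega
    have a2 : s + 1 < j := by omega
    simp [h, a1, a2]
  · subst h
    rcases Nat.lt_or_eq_of_le hij with h' | h'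
    · have a1 : s + 1 < j + 1 := by omega
      have a2 : s + 1 + 1 < j + 1 := by omega
      simp [h', a1, a2]
    · subst h'
      simp [mulS_assoc]
  · have b1 : ¬ (s + 1 < i) := by omega
    have b2 : ¬ (s + 1 = i) := by omega
    have b3 : ¬ (s + 1 + 1 < i) := by omega
    have b4 : ¬ (s + 1 + 1 = i) := by omega
    rcases lt_trichotomy (s + 1) j with h' | h' | h'
    · have a1 : s + 1 + 1 < j + 1 := by omega
      simp [h', b1, b2]
    · subst h'
      simp [b1, b2, b3, b4]
    · have c1 : ¬ (s + 1 + 1 < j + 1) := by omega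
      have c2 : ¬ (s + 1 + 1 = j + 1) := by omega
      have c3 : ¬ (s + 1 < j) := by omega
      have c4 : ¬ (s + 1 = j) := by omega
      simp [b1, b2, b3, b4, c3, c4]

/-- `ξ_k` in slot `s`, with `ξ_0 = 1` -/
noncomputable def xi (s : ℕ) : ℕ → RR
  | 0 => 1
  | k + 1 => MvPolynomial.X (s, k)

/-- coface maps -/
noncomputable def del (i : ℕ) : RR →ₐ[ZMod 3] RR :=
  MvPolynomial.aeval fun v : ℕ × ℕ => face i xi v.1 (v.2 + 1)

theorem del_xi (i s k : ℕ) : del i (xi s k) = face i xi s k := by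
  cases k with
  | zero => rw [face_zero_idx i xi (fun _ => rfl)]; simp [xi]
  | succ k => simp [xi, del]

theorem del_del (i j : ℕ) (hij : i ≤ j) (p : RR) :
    del (j + 1) (del i p) = del i (del j p) := by
  have : (del (j + 1)).comp (del i) = (del i).comp (del j) := by
    refine MvPolynomial.algHom_ext fun v => ?_
    have e : (MvPolynomial.X v : RR) = xi v.1 (v.2 + 1) := rfl
    rw [AlgHom.comp_apply, AlgHom.comp_apply, e, del_xi, del_xi]
    have m1 : del (j + 1) (face i xi v.1 (v.2 + 1))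
        = face i (fun s k => del (j + 1) (xi s k)) v.1 (v.2 + 1) :=
      map_face (del (j + 1)).toRingHom i xi v.1 (v.2 + 1)
    have m2 : del i (face j xi v.1 (v.2 + 1))
        = face j (fun s k => del i (xi s k)) v.1 (v.2 + 1) :=
      map_face (del i).toRingHom j xi v.1 (v.2 + 1)
    rw [m1, m2]
    simp only [del_xi]
    have := face_face i j hij xi
    exact congrFun (congrFun this v.1) (v.2 + 1)
  exact DFunLike.congr_fun this p

/-- the cobar differential on `n`-cochains -/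
noncomputable def DD (n : ℕ) (p : RR) : RR := ∑ i ∈ range (n + 2), (-1) ^ i * del i p

/-- the Bockstein power operation on cochains -/
noncomputable def NN (n : ℕ) (p : RR) : RR := SN (fun i => (-1) ^ i * del i p) (n + 2)

theorem DD_add (n : ℕ) (p q : RR) : DD n (p + q) = DD n p + DD n q := by
  simp [DD, mul_add, Finset.sum_add_distrib]

theorem DD_neg (n : ℕ) (p : RR) : DD n (-p) = - DD n p := by
  simp [DD, Finset.sum_neg_distrib]

theorem DD_sub (n : ℕ) (p q : RR) : DD n (p - q) = DD n p - DD n q := by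
  rw [sub_eq_add_neg, DD_add, DD_neg, sub_eq_add_neg]

theorem del_pair (n : ℕ) (p : RR) (i j : ℕ) (hij : i ≤ j) :
    (-1 : RR) ^ (j + 1) * ((-1) ^ i * del (j + 1) (del i p))
      = - ((-1) ^ i * ((-1) ^ j * del i (del j p))) := by
  rw [del_del i j hij]
  ring

theorem DD_DD (n : ℕ) (p : RR) : DD (n + 1) (DD n p) = 0 := by
  have := pair_sum n (fun j i => (-1 : RR) ^ j * ((-1) ^ i * del j (del i p)))
    (fun i j hij _ => del_pair n p i j hij)
  rw [← this]
  unfold DD
  refine Finset.sum_congr rfl fun j _ => ?_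
  rw [map_sum, Finset.mul_sum]
  refine Finset.sum_congr rfl fun i _ => ?_
  simp

theorem NN_DD (n : ℕ) (p : RR) : NN (n + 1) (DD n p) = - DD (n + 1) (NN n p) := by
  have key := SN_pair n (fun j i => (-1 : RR) ^ j * ((-1) ^ i * del j (del i p)))
    (fun i j hij _ => del_pair n p i j hij)
  have h1 : NN (n + 1) (DD n p) = SN (fun j => ∑ i ∈ Finset.range (n + 2),
      (-1 : RR) ^ j * ((-1) ^ i * del j (del i p))) (n + 3) := by
    unfold NN
    refine SN_congr fun j _ => ?_
    unfold DD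
    rw [map_sum, Finset.mul_sum]
    refine Finset.sum_congr rfl fun i _ => ?_
    simp
  have h2 : DD (n + 1) (NN n p) = ∑ j ∈ Finset.range (n + 3),
      SN (fun i => (-1 : RR) ^ j * ((-1) ^ i * del j (del i p))) (n + 2) := by
    unfold DD
    refine Finset.sum_congr rfl fun j _ => ?_
    rw [SN_smul, NN]
    have h3 : del j (SN (fun i => (-1) ^ i * del i p) (n + 2))
        = SN (fun i => (-1) ^ i * del j (del i p)) (n + 2) := by
      have := map_SN (del j).toRingHom (fun i => (-1) ^ i * del i p) (n + 2)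
      refine this.trans (SN_congr fun i _ => ?_)
      simp
    rw [h3]
    have h4 : ((-1 : RR) ^ j) ^ 3 = (-1) ^ j := by
      rw [← pow_mul, mul_comm, pow_mul]; norm_num
    rw [h4]
  rw [h1, h2]
  exact eq_neg_of_add_eq_zero_right key

theorem NN_add (n : ℕ) (a c : RR) (ha : DD n a = 0) (hc : DD n c = 0) :
    NN n (a + c) = NN n a + NN n c + DD n (a * c * (a + c)) := by
  unfold NN
  have : (fun i => (-1 : RR) ^ i * del i (a + c))
      = fun i => ((-1 : RR) ^ i * del i a) + ((-1 : RR) ^ i * del i c) := by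
    funext i; rw [map_add, mul_add]
  rw [this, SN_add]
  have ha' : ∑ i ∈ range (n + 2), (-1 : RR) ^ i * del i a = 0 := ha
  have hc' : ∑ i ∈ range (n + 2), (-1 : RR) ^ i * del i c = 0 := hc
  rw [ha', hc']
  have h5 : ∑ i ∈ range (n + 2), (-1 : RR) ^ i * del i a * ((-1) ^ i * del i c)
      * ((-1) ^ i * del i a + (-1) ^ i * del i c) = DD n (a * c * (a + c)) := by
    unfold DD
    refine Finset.sum_congr rfl fun i _ => ?_
    rw [map_mul, map_mul, map_add]
    have h4 : ((-1 : RR) ^ i) ^ 3 = (-1) ^ i := by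
      rw [← pow_mul, mul_comm, pow_mul]; norm_num
    linear_combination (del i a * del i c * (del i a + del i c)) * h4
  rw [h5]
  ring

theorem three_RR : (3 : RR) = 0 := by
  have : ((3 : ℕ) : RR) = 0 := CharP.cast_eq_zero RR 3
  exact_mod_cast this

/-- Frobenius commutes with everything -/
theorem DD_cube (n : ℕ) (p : RR) : DD n (p ^ 3) = (DD n p) ^ 3 := by
  have : Fact (Nat.Prime 3) := ⟨by norm_num⟩
  have : ExpChar RR 3 := ExpChar.prime (by norm_num)
  unfold DD
  rw [sum_pow_char]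
  refine Finset.sum_congr rfl fun i _ => ?_
  have h4 : ((-1 : RR) ^ i) ^ 3 = (-1) ^ i := by
    rw [← pow_mul, mul_comm, pow_mul]; norm_num
  rw [mul_pow, h4, map_pow]

theorem frob_RR (a b : RR) : (a + b) ^ 3 = a ^ 3 + b ^ 3 := by
  linear_combination (a ^ 2 * b + a * b ^ 2) * three_RR

theorem frob_sub (a b : RR) : (a - b) ^ 3 = a ^ 3 - b ^ 3 := by
  linear_combination (-a ^ 2 * b + a * b ^ 2) * three_RR

theorem SN_cube (y : ℕ → RR) (m : ℕ) : SN (fun i => y i ^ 3) m = (SN y m) ^ 3 := by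
  have : Fact (Nat.Prime 3) := ⟨by norm_num⟩
  have : ExpChar RR 3 := ExpChar.prime (by norm_num)
  have := map_SN (frobenius RR 3) y m
  simpa [frobenius_def] using this.symm

theorem NN_cube (n : ℕ) (p : RR) : NN n (p ^ 3) = (NN n p) ^ 3 := by
  unfold NN
  rw [← SN_cube]
  refine SN_congr fun i _ => ?_
  have h4 : ((-1 : RR) ^ i) ^ 3 = (-1) ^ i := by
    rw [← pow_mul, mul_comm, pow_mul]; norm_num
  rw [mul_pow, h4, map_pow]

theorem NN_neg (n : ℕ) (p : RR) : NN n (-p) = - NN n p := by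
  unfold NN
  have : (fun i => (-1 : RR) ^ i * del i (-p)) = fun i => (-1) * ((-1 : RR) ^ i * del i p) := by
    funext i; rw [map_neg]; ring
  rw [this, SN_smul]
  ring

end Vale.Agent.P236.H68
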