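import Vale.Agent.P236.H68.NonZ2

/-!
`dA ∘ dA = 0`.
-/

namespace Vale.Agent.P236.H68

open Finset

theorem cof_cof (n : ℕ) (i j : ℕ) (hi : i ≤ j) (p : Cob n) :
    cof (n + 1) (j + 1) (cof n i p) = cof (n + 1) i (cof n j p) := by
  apply emb_inj
  rw [emb_cof, emb_cof, emb_cof, emb_cof]
  exact del_del i j hi _

theorem cofTau_lt {n : ℕ} {i : ℕ} {s : Fin n} (k : ℕ) (h : (s : ℕ) + 1 < i) :
    cofTau i s k = tauT s.castSucc k := by
  unfold cofTau; rw [if_pos h]

theorem cofTau_eq {n : ℕ} {i : ℕ} {s : Fin n} (k : ℕ) (h : (s : ℕ) + 1 = i) :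
    cofTau i s k = tauT s.castSucc k + ∑ ab ∈ HasAntidiagonal.antidiagonal k,
      inc (n + 1) (xiT s.castSucc ab.1 ^ (3 ^ ab.2)) * tauT s.succ ab.2 := by
  unfold cofTau; rw [if_neg (by omega), if_pos h]; rfl

theorem cofTau_gt {n : ℕ} {i : ℕ} {s : Fin n} (k : ℕ) (h : i < (s : ℕ) + 1) :
    cofTau i s k = tauT s.succ k := by
  unfold cofTau; rw [if_neg (by omega), if_neg (by omega)]

theorem cofXi_lt {n : ℕ} {i : ℕ} {s : Fin n} (k : ℕ) (h : (s : ℕ) + 1 < i) :
    cofXi i s k = xiT s.castSucc k := by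
  unfold cofXi; rw [if_pos h]

theorem cofXi_eq {n : ℕ} {i : ℕ} {s : Fin n} (k : ℕ) (h : (s : ℕ) + 1 = i) :
    cofXi i s k = ∑ ab ∈ HasAntidiagonal.antidiagonal k,
      xiT s.castSucc ab.1 ^ (3 ^ ab.2) * xiT s.succ ab.2 := by
  unfold cofXi; rw [if_neg (by omega), if_pos h]

theorem cofXi_gt {n : ℕ} {i : ℕ} {s : Fin n} (k : ℕ) (h : i < (s : ℕ) + 1) :
    cofXi i s k = xiT s.succ k := by
  unfold cofXi; rw [if_neg (by omega), if_neg (by omega)]

theorem cofA_sum (n : ℕ) (i : ℕ) (s : Fin n) (k : ℕ) :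
    cofA (n + 1) i (tauT s.castSucc k + ∑ ab ∈ HasAntidiagonal.antidiagonal k,
      inc (n + 1) (xiT s.castSucc ab.1 ^ (3 ^ ab.2)) * tauT s.succ ab.2)
    = cofTau i s.castSucc k + ∑ ab ∈ HasAntidiagonal.antidiagonal k,
      inc (n + 2) (cofXi i s.castSucc ab.1) ^ (3 ^ ab.2) * cofTau i s.succ ab.2 := by
  rw [map_add, map_sum, cofA_tauT]
  congr 1
  refine Finset.sum_congr rfl fun ab _ => ?_
  rw [map_mul, cofA_inc, cofA_tauT, map_pow, cof_xiT, map_pow]

theorem assoc_sum (n : ℕ) (g h : ℕ → Cob n) (t : ℕ → CobA n) (k : ℕ) :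
    (∑ ab ∈ HasAntidiagonal.antidiagonal k, inc n (g ab.1 ^ (3 ^ ab.2)) *
        ∑ ce ∈ HasAntidiagonal.antidiagonal ab.2, inc n (h ce.1 ^ (3 ^ ce.2)) * t ce.2)
    = ∑ ab ∈ HasAntidiagonal.antidiagonal k,
        inc n (∑ ce ∈ HasAntidiagonal.antidiagonal ab.1, g ce.1 ^ (3 ^ ce.2) * h ce.2)
          ^ (3 ^ ab.2) * t ab.2 := by
  have h1 : ∀ ab ∈ HasAntidiagonal.antidiagonal k,
      inc n (∑ ce ∈ HasAntidiagonal.antidiagonal ab.1, g ce.1 ^ (3 ^ ce.2) * h ce.2)
          ^ (3 ^ ab.2) * t ab.2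
      = ∑ ce ∈ HasAntidiagonal.antidiagonal ab.1,
        inc n (g ce.1 ^ (3 ^ (ce.2 + ab.2)) * h ce.2 ^ (3 ^ ab.2)) * t ab.2 := by
    intro ab _
    have : Fact (Nat.Prime 3) := ⟨by norm_num⟩
    have : CharP (Cob n) 3 := inferInstanceAs (CharP (MvPolynomial (Fin n × ℕ) (ZMod 3)) 3)
    have : ExpChar (Cob n) 3 := ExpChar.prime (by norm_num)
    rw [← map_pow, sum_pow_char_pow, map_sum]
    refine (Finset.sum_mul _ _ _).trans (Finset.sum_congr rfl fun ce _ => ?_)
    rw [mul_pow, ← pow_mul, ← pow_add]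
  have h2 : ∀ ab ∈ HasAntidiagonal.antidiagonal k,
      inc n (g ab.1 ^ (3 ^ ab.2)) *
        ∑ ce ∈ HasAntidiagonal.antidiagonal ab.2, inc n (h ce.1 ^ (3 ^ ce.2)) * t ce.2
      = ∑ ce ∈ HasAntidiagonal.antidiagonal ab.2,
        inc n (g ab.1 ^ (3 ^ (ce.1 + ce.2)) * h ce.1 ^ (3 ^ ce.2)) * t ce.2 := by
    intro ab _
    refine (Finset.mul_sum _ _ _).trans (Finset.sum_congr rfl fun ce hce => ?_)
    rw [HasAntidiagonal.mem_antidiagonal.1 hce, ← mul_assoc, ← map_mul]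
  rw [Finset.sum_congr rfl h1, Finset.sum_congr rfl h2, Finset.sum_sigma', Finset.sum_sigma']
  refine Finset.sum_nbij' (fun x => ⟨(x.1.1 + x.2.1, x.2.2), (x.1.1, x.2.1)⟩)
    (fun x => ⟨(x.2.1, x.2.2 + x.1.2), (x.2.2, x.1.2)⟩) ?_ ?_ ?_ ?_ ?_
  · rintro ⟨⟨a, b⟩, ⟨c, e⟩⟩ hx
    simp only [mem_sigma, HasAntidiagonal.mem_antidiagonal] at hx
    obtain ⟨h1, h2⟩ := hx
    simp only [mem_sigma, HasAntidiagonal.mem_antidiagonal, and_true]
    omega
  · rintro ⟨⟨a, b⟩, ⟨c, e⟩⟩ hx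
    simp only [mem_sigma, HasAntidiagonal.mem_antidiagonal] at hx
    obtain ⟨h1, h2⟩ := hx
    simp only [mem_sigma, HasAntidiagonal.mem_antidiagonal, and_true]
    omega
  · rintro ⟨⟨a, b⟩, ⟨c, e⟩⟩ hx
    simp only [mem_sigma, HasAntidiagonal.mem_antidiagonal] at hx
    obtain ⟨h1, h2⟩ := hx
    subst h2
    rfl
  · rintro ⟨⟨a, b⟩, ⟨c, e⟩⟩ hx
    simp only [mem_sigma, HasAntidiagonal.mem_antidiagonal] at hx
    obtain ⟨h1, h2⟩ := hx
    subst h2
    rfl
  · rintro ⟨⟨a, b⟩, ⟨c, e⟩⟩ hx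
    rfl

theorem cofA_cofTau (n : ℕ) (i j : ℕ) (hi : i ≤ j) (s : Fin n) (k : ℕ) :
    cofA (n + 1) (j + 1) (cofTau i s k) = cofA (n + 1) i (cofTau j s k) := by
  rcases lt_trichotomy ((s : ℕ) + 1) i with h | h | h
  · rw [cofTau_lt k h, cofTau_lt k (lt_of_lt_of_le h hi), cofA_tauT, cofA_tauT,
      cofTau_lt k (by simpa using by omega), cofTau_lt k (by simpa using h)]
  · rw [cofTau_eq k h, cofA_sum]
    have e1 : cofTau (j + 1) s.castSucc k = tauT s.castSucc.castSucc k :=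
      cofTau_lt k (by simpa using by omega)
    have e2 : ∀ a, cofXi (j + 1) s.castSucc a = xiT s.castSucc.castSucc a :=
      fun a => cofXi_lt a (by simpa using by omega)
    rcases Nat.lt_or_eq_of_le hi with h' | h'
    · rw [cofTau_lt (s := s) (i := j) k (by omega), cofA_tauT,
        cofTau_eq (s := s.castSucc) (i := i) k (by simpa using h)]
      simp only [e1, e2]
      congr 1
      refine Finset.sum_congr rfl fun ab _ => ?_
      rw [cofTau_lt (s := s.succ) _ (by simpa using by omega), map_pow, Fin.succ_castSucc]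
    · subst h'
      rw [cofTau_eq k h, cofA_sum]
      simp only [e1, e2]
      have e3 : cofTau i s.castSucc k = tauT s.castSucc.castSucc k
          + ∑ ab ∈ HasAntidiagonal.antidiagonal k,
            inc (n + 2) (xiT s.castSucc.castSucc ab.1 ^ (3 ^ ab.2)) * tauT s.castSucc.succ ab.2 :=
        cofTau_eq k (by simpa using h)
      have e4 : ∀ a, cofXi i s.castSucc a = ∑ ab ∈ HasAntidiagonal.antidiagonal a,
          xiT s.castSucc.castSucc ab.1 ^ (3 ^ ab.2) * xiT s.castSucc.succ ab.2 :=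
        fun a => cofXi_eq a (by simpa using h)
      have e5 : ∀ a, cofTau i s.succ a = tauT s.succ.succ a :=
        fun a => cofTau_gt a (by simpa using by omega)
      have e6 : ∀ a, cofTau (i + 1) s.succ a = tauT s.succ.castSucc a
          + ∑ ab ∈ HasAntidiagonal.antidiagonal a,
            inc (n + 2) (xiT s.succ.castSucc ab.1 ^ (3 ^ ab.2)) * tauT s.succ.succ ab.2 :=
        fun a => cofTau_eq a (by simpa using h)
      simp only [e3, e4, e5, e6, mul_add, Finset.sum_add_distrib, Fin.succ_castSucc]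
      rw [← add_assoc (tauT s.castSucc.castSucc k)]
      congr 1
      · congr 1
        refine Finset.sum_congr rfl fun ab _ => ?_
        rw [map_pow]
      · rw [← assoc_sum]
        refine Finset.sum_congr rfl fun ab _ => ?_
        rw [map_pow]
  · rw [cofTau_gt k h, cofA_tauT]
    rcases lt_trichotomy ((s : ℕ) + 1) j with h' | h' | h'
    · rw [cofTau_lt k h', cofA_tauT, cofTau_lt (s := s.succ) _ (by simpa using by omega),
        cofTau_gt (s := s.castSucc) _ (by simpa using h), Fin.succ_castSucc]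
    · rw [cofTau_eq k h', cofA_sum, cofTau_eq (s := s.succ) _ (by simpa using h'),
        cofTau_gt (s := s.castSucc) _ (by simpa using h), Fin.succ_castSucc]
      congr 1
      refine Finset.sum_congr rfl fun ab _ => ?_
      rw [cofXi_gt (s := s.castSucc) _ (by simpa using h),
        cofTau_gt (s := s.succ) _ (by simpa using by omega), Fin.succ_castSucc, map_pow]
    · rw [cofTau_gt k h', cofA_tauT, cofTau_gt (s := s.succ) _ (by simpa using by omega),
        cofTau_gt (s := s.succ) _ (by simpa using by omega)]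

theorem cofA_cofA (n : ℕ) (i j : ℕ) (hi : i ≤ j) (z : CobA n) :
    cofA (n + 1) (j + 1) (cofA n i z) = cofA (n + 1) i (cofA n j z) := by
  have : (cofA (n + 1) (j + 1)).comp (cofA n i) = (cofA (n + 1) i).comp (cofA n j) := by
    refine cobA_ext (fun p => ?_) (fun s k => ?_)
    · rw [AlgHom.comp_apply, AlgHom.comp_apply, cofA_inc, cofA_inc, cofA_inc, cofA_inc,
        cof_cof n i j hi]
    · rw [AlgHom.comp_apply, AlgHom.comp_apply, cofA_tauT, cofA_tauT]
      exact cofA_cofTau n i j hi s k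
  exact DFunLike.congr_fun this z

theorem dA_dA (n : ℕ) (z : CobA n) : dA (n + 1) (dA n z) = 0 := by
  have key := pair_sum n (fun j i => (-1 : CobA (n + 2)) ^ j *
      ((-1) ^ i * cofA (n + 1) j (cofA n i z))) (by
    intro i j hij _
    show (-1 : CobA (n + 2)) ^ (j + 1) * ((-1) ^ i * cofA (n + 1) (j + 1) (cofA n i z))
      = - ((-1) ^ i * ((-1) ^ j * cofA (n + 1) i (cofA n j z)))
    rw [cofA_cofA n i j hij z, ← mul_assoc, ← mul_assoc, ← pow_add, ← pow_add,
      show j + 1 + i = (i + j) + 1 by ring, pow_succ, mul_neg_one, neg_mul])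
  rw [← key]
  unfold dA
  refine Finset.sum_congr rfl fun j _ => ?_
  rw [map_sum]
  refine (Finset.mul_sum _ _ _).trans (Finset.sum_congr rfl fun i _ => ?_)
  rw [map_mul, map_pow, map_neg, map_one]

end Vale.Agent.P236.H68
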