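import Mathlib

/-!
# The cobar complex of the mod 3 dual Steenrod algebra

`A_* = P_* ⊗ E`, `P_* = F_3[ξ_1, ξ_2, ...]`, `E` the exterior algebra on `τ_0, τ_1, ...`, with
`Δ ξ_k = ∑_{a+b=k} ξ_a^(3^b) ⊗ ξ_b` and `Δ τ_k = τ_k ⊗ 1 + ∑_{a+b=k} ξ_a^(3^b) ⊗ τ_b`.

`Cob n` is `P_*^{⊗ n}` and `CobA n` is the graded tensor power `A_*^{⊗ n}`; the differential is
the alternating sum of the cofaces `1 ⊗ -`, `id ⊗ Δ ⊗ id`, `- ⊗ 1`.
-/

namespace Vale.Agent.P236.H68

open scoped TensorProduct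

/-- `P_*^{⊗ n}`: the polynomial ring over `F_3` in the variables `X (s, k)`, where `X (s, k)`
stands for `ξ_(k+1)` in the tensor factor `s`. -/
def Cob (n : ℕ) : Type := MvPolynomial (Fin n × ℕ) (ZMod 3)

noncomputable instance instCob (n : ℕ) : CommRing (Cob n) :=
  (inferInstance : CommRing (MvPolynomial (Fin n × ℕ) (ZMod 3)))

noncomputable instance algCob (n : ℕ) : Algebra (ZMod 3) (Cob n) :=
  (inferInstance : Algebra (ZMod 3) (MvPolynomial (Fin n × ℕ) (ZMod 3)))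

/-- `ξ_k` in the tensor factor `s`; `ξ_0 = 1`. -/
noncomputable def xiT {n : ℕ} (s : Fin n) : ℕ → Cob n
  | 0 => 1
  | k + 1 => (MvPolynomial.X (s, k) : MvPolynomial (Fin n × ℕ) (ZMod 3))

/-- The image of `ξ_k` in the factor `s` under the coface `i`. -/
noncomputable def cofXi {n : ℕ} (i : ℕ) (s : Fin n) (k : ℕ) : Cob (n + 1) :=
  if (s : ℕ) + 1 < i then xiT s.castSucc k
  else if (s : ℕ) + 1 = i then
    ∑ ab ∈ Finset.HasAntidiagonal.antidiagonal k, xiT s.castSucc ab.1 ^ (3 ^ ab.2) * xiT s.succ ab.2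
  else xiT s.succ k

/-- The coface `i` on `P_*^{⊗ n}`: `1 ⊗ -` for `i = 0`, `Δ` on the factor `i - 1` for
`1 ≤ i ≤ n`, and `- ⊗ 1` for `i = n + 1`. -/
noncomputable def cof (n : ℕ) (i : ℕ) : Cob n →ₐ[ZMod 3] Cob (n + 1) :=
  MvPolynomial.aeval fun v : Fin n × ℕ => cofXi i v.1 (v.2 + 1)

/-- The map `x ↦ x ⊗ 1` from `P_*^{⊗ m}` to `P_*^{⊗ (m + n)}`. -/
noncomputable def cupL (m n : ℕ) : Cob m →ₐ[ZMod 3] Cob (m + n) :=
  MvPolynomial.aeval (fun v : Fin m × ℕ => xiT (Fin.castAdd n v.1) (v.2 + 1))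

/-- The map `y ↦ 1 ⊗ y` from `P_*^{⊗ n}` to `P_*^{⊗ (m + n)}`. -/
noncomputable def cupR (m n : ℕ) : Cob n →ₐ[ZMod 3] Cob (m + n) :=
  MvPolynomial.aeval (fun v : Fin n × ℕ => xiT (Fin.natAdd m v.1) (v.2 + 1))

/-- The product `[x_1 | ... | x_m] [y_1 | ... | y_n] = [x_1 | ... | x_m | y_1 | ... | y_n]`. -/
noncomputable def cup {m n : ℕ} (p : Cob m) (q : Cob n) : Cob (m + n) :=
  cupL m n p * cupR m n q

/-- `h_i = [ξ_1^(3^i)]`. -/
noncomputable def h (i : ℕ) : Cob 1 := xiT 0 1 ^ 3 ^ i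

/-- `b_j = ∑_{0<i<3} (1/3) binom(3,i) [ξ_1^(i 3^j) | ξ_1^((3-i) 3^j)]`. -/
noncomputable def b (j : ℕ) : Cob 2 :=
  ∑ i ∈ Finset.Ioo 0 3,
    ((Nat.choose 3 i / 3 : ℕ) : Cob 2) * (xiT 0 1 ^ (i * 3 ^ j) * xiT 1 1 ^ ((3 - i) * 3 ^ j))

/-- `b_j b_j`. -/
noncomputable def bb (j : ℕ) : Cob 4 := cup (b j) (b j)

/-- `b_j b_j b_j`. -/
noncomputable def bbb (j : ℕ) : Cob 6 := cup (bb j) (b j)

/-- `h_i b_{i+1} b_{i+1}`. -/
noncomputable def hbb (i : ℕ) : Cob 5 := cup (h i) (bb (i + 1))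

/-- The Toda obstruction `h_0 b_j b_j b_j`. -/
noncomputable def toda (j : ℕ) : Cob 7 := cup (h 0) (bbb j)

/-- The vector space over `F_3` on the pairs `s, k`, which stand for `τ_k` in the factor `s`. -/
def TauV (n : ℕ) : Type := Fin n × ℕ →₀ ZMod 3

noncomputable instance instTauV (n : ℕ) : AddCommGroup (TauV n) :=
  (inferInstance : AddCommGroup (Fin n × ℕ →₀ ZMod 3))

noncomputable instance modTauV (n : ℕ) : Module (ZMod 3) (TauV n) :=
  (inferInstance : Module (ZMod 3) (Fin n × ℕ →₀ ZMod 3))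

/-- The basis vector `τ_k` in the factor `s`. -/
noncomputable def tauV {n : ℕ} (s : Fin n) (k : ℕ) : TauV n := Finsupp.single (s, k) 1

/-- Linear extension from the basis. -/
noncomputable def linV (n : ℕ) {M : Type} [AddCommMonoid M] [Module (ZMod 3) M]
    (f : Fin n × ℕ → M) : TauV n →ₗ[ZMod 3] M :=
  Finsupp.linearCombination (ZMod 3) f

theorem linV_apply (n : ℕ) {M : Type} [AddCommMonoid M] [Module (ZMod 3) M]
    (f : Fin n × ℕ → M) (m : TauV n) :
    linV n f m = ∑ v ∈ Finsupp.support (M := ZMod 3) m,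
      (DFunLike.coe (F := Fin n × ℕ →₀ ZMod 3) m v) • f v :=
  Finsupp.linearCombination_apply (ZMod 3) (α := Fin n × ℕ) (M := M) (v := f) m

/-- The exterior algebra over `F_3` on the `τ_k` in the factors `s`. -/
def ExtT (n : ℕ) : Type := ExteriorAlgebra (ZMod 3) (TauV n)

noncomputable instance instExtT (n : ℕ) : Ring (ExtT n) :=
  (inferInstance : Ring (ExteriorAlgebra (ZMod 3) (TauV n)))

noncomputable instance algExtT (n : ℕ) : Algebra (ZMod 3) (ExtT n) :=
  (inferInstance : Algebra (ZMod 3) (ExteriorAlgebra (ZMod 3) (TauV n)))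

/-- The generators of the exterior algebra. -/
noncomputable def iotaT (n : ℕ) : TauV n →ₗ[ZMod 3] ExtT n := ExteriorAlgebra.ι (ZMod 3)

/-- The universal property of the exterior algebra. -/
noncomputable def liftE (n : ℕ) {A : Type} [Ring A] [Algebra (ZMod 3) A]
    (f : TauV n →ₗ[ZMod 3] A) (hf : ∀ m, f m * f m = 0) : ExtT n →ₐ[ZMod 3] A :=
  ExteriorAlgebra.lift (ZMod 3) ⟨f, hf⟩

/-- `A_*^{⊗ n}`, as a graded commutative algebra: `P_*^{⊗ n} ⊗ ExtT n`. -/
def CobA (n : ℕ) : Type := Cob n ⊗[ZMod 3] ExtT n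

noncomputable instance instCobA (n : ℕ) : Ring (CobA n) :=
  (inferInstance : Ring (Cob n ⊗[ZMod 3] ExtT n))

noncomputable instance algCobA (n : ℕ) : Algebra (ZMod 3) (CobA n) :=
  (inferInstance : Algebra (ZMod 3) (Cob n ⊗[ZMod 3] ExtT n))

/-- The inclusion `P_*^{⊗ n} → A_*^{⊗ n}`. -/
noncomputable def inc (n : ℕ) : Cob n →ₐ[ZMod 3] CobA n :=
  (Algebra.TensorProduct.includeLeft : Cob n →ₐ[ZMod 3] Cob n ⊗[ZMod 3] ExtT n)

/-- The inclusion `ExtT n → A_*^{⊗ n}`. -/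
noncomputable def incE (n : ℕ) : ExtT n →ₐ[ZMod 3] CobA n :=
  (Algebra.TensorProduct.includeRight : ExtT n →ₐ[ZMod 3] Cob n ⊗[ZMod 3] ExtT n)

/-- The universal property of `CobA n`. -/
noncomputable def liftA (n : ℕ) {A : Type} [Ring A] [Algebra (ZMod 3) A]
    (f : Cob n →ₐ[ZMod 3] A) (g : ExtT n →ₐ[ZMod 3] A) (hfg : ∀ x y, Commute (f x) (g y)) :
    CobA n →ₐ[ZMod 3] A :=
  Algebra.TensorProduct.lift f g hfg

/-- An element of `P_*^{⊗ n}` as an element of `A_*^{⊗ n}`. -/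
noncomputable def toA {n : ℕ} (p : Cob n) : CobA n := inc n p

/-- `τ_k` in the tensor factor `s`. -/
noncomputable def tauT {n : ℕ} (s : Fin n) (k : ℕ) : CobA n := incE n (iotaT n (tauV s k))

/-- The image of `τ_k` in the factor `s` under the coface `i`. -/
noncomputable def cofTau {n : ℕ} (i : ℕ) (s : Fin n) (k : ℕ) : CobA (n + 1) :=
  if (s : ℕ) + 1 < i then tauT s.castSucc k
  else if (s : ℕ) + 1 = i then
    tauT s.castSucc k + ∑ ab ∈ Finset.HasAntidiagonal.antidiagonal k,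
      toA (xiT s.castSucc ab.1 ^ (3 ^ ab.2)) * tauT s.succ ab.2
  else tauT s.succ k

theorem inc_comm (n : ℕ) (p : Cob n) (z : CobA n) : Commute (inc n p) z :=
  Algebra.commutes (A := Cob n ⊗[ZMod 3] ExtT n) p z

/-- Sums of elements `p v`, `v` in the span of the `τ`'s. -/
def OddOne {n : ℕ} (z : CobA n) : Prop :=
  z ∈ AddSubmonoid.closure {z : CobA n | ∃ p v, z = inc n p * incE n (iotaT n v)}

theorem OddOne.add {n : ℕ} {z w : CobA n} (hz : OddOne z) (hw : OddOne w) : OddOne (z + w) :=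
  AddSubmonoid.add_mem _ hz hw

theorem OddOne.zero {n : ℕ} : OddOne (0 : CobA n) := AddSubmonoid.zero_mem _

theorem OddOne.smul {n : ℕ} {z : CobA n} (hz : OddOne z) (p : Cob n) :
    OddOne (inc n p * z) := by
  unfold OddOne at hz
  induction hz using AddSubmonoid.closure_induction with
  | mem x hx =>
    obtain ⟨q, v, rfl⟩ := hx
    exact AddSubmonoid.subset_closure ⟨p * q, v, by rw [map_mul, mul_assoc]⟩
  | zero => rw [mul_zero]; exact OddOne.zero
  | add x y _ _ hx hy => rw [mul_add]; exact hx.add hy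

theorem OddOne.tauT {n : ℕ} (s : Fin n) (k : ℕ) : OddOne (tauT s k) :=
  AddSubmonoid.subset_closure ⟨1, tauV s k, by rw [map_one, one_mul]; rfl⟩

theorem OddOne.sum {n : ℕ} {ι : Type*} (t : Finset ι) (f : ι → CobA n)
    (hf : ∀ i ∈ t, OddOne (f i)) : OddOne (∑ i ∈ t, f i) :=
  AddSubmonoid.sum_mem _ hf

theorem OddOne.cofTau {n : ℕ} (i : ℕ) (s : Fin n) (k : ℕ) : OddOne (cofTau i s k) := by
  unfold H68.cofTau toA
  split_ifs
  · exact OddOne.tauT _ _
  · exact (OddOne.tauT _ _).add (OddOne.sum _ _ fun _ _ => (OddOne.tauT _ _).smul _)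
  · exact OddOne.tauT _ _

theorem prod_rule {n : ℕ} (p q : Cob n) (v w : TauV n) :
    (inc n p * incE n (iotaT n v)) * (inc n q * incE n (iotaT n w))
      = inc n (p * q) * incE n (iotaT n v * iotaT n w) := by
  rw [map_mul, map_mul, mul_assoc, ← mul_assoc (incE n (iotaT n v)),
    ← (inc_comm n q (incE n (iotaT n v))).eq]
  simp only [mul_assoc]

theorem iota_sq (n : ℕ) (v : TauV n) : iotaT n v * iotaT n v = 0 :=
  ExteriorAlgebra.ι_sq_zero v

theorem iota_anti (n : ℕ) (v w : TauV n) :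
    iotaT n v * iotaT n w + iotaT n w * iotaT n v = 0 :=
  ExteriorAlgebra.ι_add_mul_swap v w

theorem OddOne.anti {n : ℕ} {z w : CobA n} (hz : OddOne z) (hw : OddOne w) :
    z * w + w * z = 0 := by
  unfold OddOne at hz hw
  induction hz using AddSubmonoid.closure_induction with
  | zero => simp
  | add x y _ _ hx hy =>
    rw [add_mul, mul_add]
    have := congrArg₂ (· + ·) hx hy
    simp only [add_zero] at this
    rw [← this]; abel
  | mem x hx =>
    obtain ⟨p, v, rfl⟩ := hx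
    induction hw using AddSubmonoid.closure_induction with
    | zero => simp
    | add x y _ _ hx hy =>
      rw [add_mul, mul_add]
      have := congrArg₂ (· + ·) hx hy
      simp only [add_zero] at this
      rw [← this]; abel
    | mem y hy =>
      obtain ⟨q, w, rfl⟩ := hy
      rw [prod_rule, prod_rule, mul_comm q p, ← mul_add, ← map_add, iota_anti, map_zero, mul_zero]

theorem OddOne.sq {n : ℕ} {z : CobA n} (hz : OddOne z) : z * z = 0 := by
  have hz0 := hz
  unfold OddOne at hz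
  induction hz using AddSubmonoid.closure_induction with
  | zero => simp
  | add x y hx' hy' hx hy =>
    have := OddOne.anti (n := n) hx' hy'
    rw [mul_add, add_mul, add_mul, hx hx', hy hy', zero_add, add_zero, add_comm]
    exact this
  | mem x hx =>
    obtain ⟨p, v, rfl⟩ := hx
    rw [prod_rule, iota_sq, map_zero, mul_zero]

/-- The images of the `τ`'s, extended linearly. -/
noncomputable def cofTauLin (n : ℕ) (i : ℕ) : TauV n →ₗ[ZMod 3] CobA (n + 1) :=
  linV n fun v : Fin n × ℕ => cofTau i v.1 v.2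

theorem cofTauLin_sq (n : ℕ) (i : ℕ) (m : TauV n) :
    cofTauLin n i m * cofTauLin n i m = 0 := by
  refine OddOne.sq ?_
  unfold cofTauLin
  rw [linV_apply]
  refine OddOne.sum _ _ fun v _ => ?_
  rw [Algebra.smul_def, ← (inc (n + 1)).commutes]
  exact (OddOne.cofTau _ _ _).smul _

/-- The coface `i` on the exterior part. -/
noncomputable def cofE (n : ℕ) (i : ℕ) : ExtT n →ₐ[ZMod 3] CobA (n + 1) :=
  liftE n (cofTauLin n i) (cofTauLin_sq n i)

/-- The coface `i` on the polynomial part. -/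
noncomputable def cofP (n : ℕ) (i : ℕ) : Cob n →ₐ[ZMod 3] CobA (n + 1) :=
  (inc (n + 1)).comp (cof n i)

theorem cofA_comm (n : ℕ) (i : ℕ) (x : Cob n) (y : ExtT n) :
    Commute (cofP n i x) (cofE n i y) :=
  inc_comm (n + 1) (cof n i x) _

theorem liftA_inc (n : ℕ) {A : Type} [Ring A] [Algebra (ZMod 3) A]
    (f : Cob n →ₐ[ZMod 3] A) (g : ExtT n →ₐ[ZMod 3] A) (hfg : ∀ x y, Commute (f x) (g y))
    (p : Cob n) : liftA n f g hfg (inc n p) = f p :=
  DFunLike.congr_fun (Algebra.TensorProduct.lift_comp_includeLeft f g hfg) p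

theorem liftA_incE (n : ℕ) {A : Type} [Ring A] [Algebra (ZMod 3) A]
    (f : Cob n →ₐ[ZMod 3] A) (g : ExtT n →ₐ[ZMod 3] A) (hfg : ∀ x y, Commute (f x) (g y))
    (w : ExtT n) : liftA n f g hfg (incE n w) = g w :=
  DFunLike.congr_fun (Algebra.TensorProduct.lift_comp_includeRight f g hfg) w

theorem liftE_iota (n : ℕ) {A : Type} [Ring A] [Algebra (ZMod 3) A]
    (f : TauV n →ₗ[ZMod 3] A) (hf : ∀ m, f m * f m = 0) (m : TauV n) :
    liftE n f hf (iotaT n m) = f m :=
  ExteriorAlgebra.lift_ι_apply (R := ZMod 3) f hf m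

theorem linV_tauV (n : ℕ) {M : Type} [AddCommMonoid M] [Module (ZMod 3) M]
    (f : Fin n × ℕ → M) (s : Fin n) (k : ℕ) : linV n f (tauV s k) = f (s, k) := by
  refine (Finsupp.linearCombination_single (ZMod 3) (1 : ZMod 3) (s, k)).trans ?_
  rw [one_smul]

theorem exists_cofA (n : ℕ) (i : ℕ) : ∃ g : CobA n →ₐ[ZMod 3] CobA (n + 1),
    (∀ p : Cob n, g (toA p) = toA (cof n i p)) ∧
    (∀ (s : Fin n) (k : ℕ), g (tauT s k) = cofTau i s k) := by
  refine ⟨liftA n (cofP n i) (cofE n i) (cofA_comm n i), fun p => ?_, fun s k => ?_⟩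
  · exact liftA_inc n (cofP n i) (cofE n i) (cofA_comm n i) p
  · refine (liftA_incE n (cofP n i) (cofE n i) (cofA_comm n i) (iotaT n (tauV s k))).trans ?_
    refine (liftE_iota n (cofTauLin n i) (cofTauLin_sq n i) (tauV s k)).trans ?_
    exact linV_tauV n _ s k

/-- The coface `i` on `A_*^{⊗ n}`: the unique algebra map which is `cof n i` on the `ξ`'s and
`cofTau i` on the `τ`'s. -/
noncomputable def cofA (n : ℕ) (i : ℕ) : CobA n →ₐ[ZMod 3] CobA (n + 1) :=
  (exists_cofA n i).choose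

/-- The cobar differential of `A_*`; the cohomology of this complex is
`Ext_{A_3}(F_3, F_3)`. -/
noncomputable def dA (n : ℕ) (z : CobA n) : CobA (n + 1) :=
  ∑ i ∈ Finset.range (n + 2), (-1) ^ i * cofA n i z

/-- `z` is a cocycle of the cobar complex of `A_*`. -/
def IsCyc (n : ℕ) (z : CobA n) : Prop := dA n z = 0

/-- `z` is a coboundary of the cobar complex of `A_*`. -/
def IsCob (n : ℕ) (z : CobA (n + 1)) : Prop := ∃ y : CobA n, dA n y = z

end Vale.Agent.P236.H68
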