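import Mathlib

/-!
Generic lemmas on the function `SN y m`, which in characteristic zero is
`((sum of the cubes of y i) - (cube of the sum of y i)) / 3`, i < m.
-/

namespace Vale.Agent.P236.H68

variable {R : Type*} [CommRing R]

/-- `(∑ y_i ^ 3 - (∑ y_i) ^ 3) / 3` over `i < m`, as an integral polynomial. -/
def SN (y : ℕ → R) : ℕ → R
  | 0 => 0
  | m + 1 => SN y m - (∑ i ∈ Finset.range m, y i) * y m * ((∑ i ∈ Finset.range m, y i) + y m)

theorem three_SN (y : ℕ → R) (m : ℕ) :
    3 * SN y m = (∑ i ∈ Finset.range m, y i ^ 3) - (∑ i ∈ Finset.range m, y i) ^ 3 := by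
  induction m with
  | zero => simp [SN]
  | succ m ih =>
    rw [SN, Finset.sum_range_succ, Finset.sum_range_succ, mul_sub, ih]
    ring

theorem SN_congr {y z : ℕ → R} {m : ℕ} (h : ∀ i < m, y i = z i) : SN y m = SN z m := by
  induction m with
  | zero => rfl
  | succ m ih =>
    have h1 : ∑ i ∈ Finset.range m, y i = ∑ i ∈ Finset.range m, z i :=
      Finset.sum_congr rfl fun i hi => h i (by have := Finset.mem_range.1 hi; omega)
    rw [SN, SN, h1, h m (by omega), ih fun i hi => h i (by omega)]

theorem SN_split (y : ℕ → R) (a b : ℕ) :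
    SN y (a + b) = SN y a + SN (fun i => y (a + i)) b
      - (∑ i ∈ Finset.range a, y i) * (∑ i ∈ Finset.range b, y (a + i))
        * ((∑ i ∈ Finset.range a, y i) + ∑ i ∈ Finset.range b, y (a + i)) := by
  induction b with
  | zero => simp [SN]
  | succ b ih =>
    have e : a + (b + 1) = (a + b) + 1 := rfl
    rw [e, SN, ih, SN, Finset.sum_range_succ (fun i => y (a + i)), Finset.sum_range_add]
    ring

theorem SN_smul (c : R) (y : ℕ → R) (m : ℕ) : SN (fun i => c * y i) m = c ^ 3 * SN y m := by
  induction m with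
  | zero => simp [SN]
  | succ m ih =>
    rw [SN, SN, ih, ← Finset.mul_sum]
    ring

theorem SN_add (a c : ℕ → R) (m : ℕ) :
    SN (fun i => a i + c i) m = SN a m + SN c m
      + (∑ i ∈ Finset.range m, a i * c i * (a i + c i))
      - (∑ i ∈ Finset.range m, a i) * (∑ i ∈ Finset.range m, c i)
        * ((∑ i ∈ Finset.range m, a i) + ∑ i ∈ Finset.range m, c i) := by
  induction m with
  | zero => simp [SN]
  | succ m ih =>
    rw [SN, SN, SN, ih, Finset.sum_add_distrib, Finset.sum_range_succ a,
      Finset.sum_range_succ c, Finset.sum_range_succ (fun i => a i * c i * (a i + c i))]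
    ring

theorem map_SN {S : Type*} [CommRing S] (f : R →+* S) (y : ℕ → R) (m : ℕ) :
    f (SN y m) = SN (fun i => f (y i)) m := by
  induction m with
  | zero => simp [SN]
  | succ m ih => simp [SN, ih, map_sum]

/-- the pairing behind `d ∘ d = 0` -/
theorem pair_sum {A : Type*} [AddCommGroup A] (n : ℕ) (f : ℕ → ℕ → A)
    (h : ∀ i j, i ≤ j → j < n + 2 → f (j + 1) i = - f i j) :
    ∑ j ∈ Finset.range (n + 3), ∑ i ∈ Finset.range (n + 2), f j i = 0 := by
  rw [← Finset.sum_product']
  refine Finset.sum_involution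
    (fun a _ => if a.2 < a.1 then (a.2, a.1 - 1) else (a.2 + 1, a.1)) ?_ ?_ ?_ ?_
  · rintro ⟨j, i⟩ ha
    simp only [Finset.mem_product, Finset.mem_range] at ha
    by_cases hij : i < j
    · obtain ⟨j, rfl⟩ : ∃ k, j = k + 1 := ⟨j - 1, by omega⟩
      simp only [hij, if_true, Nat.add_sub_cancel]
      rw [h i j (by omega) (by omega)]
      simp
    · simp only [hij, if_false]
      rw [h j i (by omega) (by omega)]
      simp
  · rintro ⟨j, i⟩ ha _
    by_cases hij : i < j
    · simp only [hij, if_true, ne_eq, Prod.mk.injEq, not_and]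
      omega
    · simp only [hij, if_false, ne_eq, Prod.mk.injEq, not_and]
      omega
  · rintro ⟨j, i⟩ ha
    simp only [Finset.mem_product, Finset.mem_range] at ha
    by_cases hij : i < j
    · simp only [hij, if_true, Finset.mem_product, Finset.mem_range]
      omega
    · simp only [hij, if_false, Finset.mem_product, Finset.mem_range]
      omega
  · rintro ⟨j, i⟩ ha
    by_cases hij : i < j
    · have : ¬ (j - 1 < i) := by omega
      simp only [hij, if_true, this, if_false, Prod.mk.injEq, and_true]
      omega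
    · have : j < i + 1 := by omega
      simp only [hij, if_false, this, if_true, Nat.add_sub_cancel]

/-- the double complex identity for `SN`, proved in a polynomial ring over the integers -/
theorem SN_pair (n : ℕ) (Y : ℕ → ℕ → R)
    (h : ∀ i j, i ≤ j → j < n + 2 → Y (j + 1) i = - Y i j) :
    (∑ j ∈ Finset.range (n + 3), SN (Y j) (n + 2))
      + SN (fun j => ∑ i ∈ Finset.range (n + 2), Y j i) (n + 3) = 0 := by
  classical
  -- the universal case
  let V : ℕ → ℕ → MvPolynomial (ℕ × ℕ) ℤ := fun j i =>
    if i < j then - MvPolynomial.X (i, j - 1) else MvPolynomial.X (j, i)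
  have hV : ∀ i j, i ≤ j → j < n + 2 → V (j + 1) i = - V i j := by
    intro i j hij _
    have h1 : i < j + 1 := by omega
    have h2 : ¬ j < i := by omega
    simp [V, h1, h2]
  have hcube : ∑ j ∈ Finset.range (n + 3), ∑ i ∈ Finset.range (n + 2), (V j i) ^ 3 = 0 := by
    refine pair_sum n (fun j i => (V j i) ^ 3) ?_
    intro i j hij hj
    simp only [hV i j hij hj]
    ring
  have hone : ∑ j ∈ Finset.range (n + 3), ∑ i ∈ Finset.range (n + 2), V j i = 0 :=
    pair_sum n V hV
  have huniv : (∑ j ∈ Finset.range (n + 3), SN (V j) (n + 2))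
      + SN (fun j => ∑ i ∈ Finset.range (n + 2), V j i) (n + 3) = 0 := by
    have h3 : (3 : MvPolynomial (ℕ × ℕ) ℤ) ≠ 0 := by
      have : (3 : MvPolynomial (ℕ × ℕ) ℤ) = MvPolynomial.C 3 := by simp
      rw [this, Ne, MvPolynomial.C_eq_zero]
      norm_num
    have : 3 * ((∑ j ∈ Finset.range (n + 3), SN (V j) (n + 2))
      + SN (fun j => ∑ i ∈ Finset.range (n + 2), V j i) (n + 3)) = 0 := by
      rw [mul_add, Finset.mul_sum, three_SN, hone]
      simp only [three_SN]
      rw [Finset.sum_sub_distrib, hcube]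
      ring
    exact (mul_eq_zero.1 this).resolve_left h3
  let f : MvPolynomial (ℕ × ℕ) ℤ →+* R := MvPolynomial.eval₂Hom (Int.castRingHom R) fun v => Y v.1 v.2
  have hf : ∀ j i, j < n + 3 → i < n + 2 → f (V j i) = Y j i := by
    intro j i hj hi
    by_cases hij : i < j
    · obtain ⟨j, rfl⟩ : ∃ k, j = k + 1 := ⟨j - 1, by omega⟩
      simp only [V, hij, if_true, f, map_neg, MvPolynomial.coe_eval₂Hom, MvPolynomial.eval₂_X,
        Nat.add_sub_cancel]
      rw [h i j (by omega) (by omega)]
    · simp [V, hij, f]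
  have := congrArg f huniv
  rw [map_add, map_sum, map_zero, map_SN] at this
  rw [← this]
  congr 1
  · refine Finset.sum_congr rfl fun j hj => ?_
    rw [map_SN]
    exact SN_congr fun i hi => (hf j i (Finset.mem_range.1 hj) hi).symm
  · refine SN_congr fun j hj => ?_
    rw [map_sum]
    exact Finset.sum_congr rfl fun i hi => (hf j i hj (Finset.mem_range.1 hi)).symm

end Vale.Agent.P236.H68
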