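import Vale.Agent.P236.H68.Rel

/-!
`b_j ^ 3 = 0` for `j ≥ 2` and `h_0 b_j ^ 2 = 0` for `j = 1`, in the untyped cobar complex.
-/

namespace Vale.Agent.P236.H68

open Finset

theorem isC_BB : IsC 2 BB :=
  ((IsC.xx (by norm_num)).mul ((IsC.xx (by norm_num)).pow 2)).add
    (((IsC.xx (by norm_num)).pow 2).mul (IsC.xx (by norm_num)))

theorem isC_GG : IsC 2 GG :=
  ((IsC.yy (by norm_num)).mul (IsC.xx (by norm_num))).sub
    (((IsC.xx (by norm_num)).pow 3).mul ((IsC.xx (by norm_num)).pow 2))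

theorem isC_two {p : RR} : p ∈ MvPolynomial.supported (ZMod 3) {v : ℕ × ℕ | v.1 < 2} → IsC 2 p := id

theorem isC_uu : IsC 2 uu := by
  have a0 : IsC 2 (xx 0) := IsC.xx (by norm_num)
  have a1 : IsC 2 (xx 1) := IsC.xx (by norm_num)
  have b1 : IsC 2 (yy 1) := IsC.yy (by norm_num)
  unfold uu pu
  exact ((((a0.mul a1).mul b1).sub ((a0.pow 2).mul b1)).sub
    ((a0.mul (a0.pow 3)).mul (a1.pow 2))).sub (((a0.pow 2).mul (a0.pow 3)).mul a1)

theorem isC_vv : IsC 2 vv := by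
  have a0 : IsC 2 (xx 0) := IsC.xx (by norm_num)
  have a1 : IsC 2 (xx 1) := IsC.xx (by norm_num)
  unfold vv pv
  exact ((((((a0.pow 3).add (a1.pow 3)).pow 2).neg).mul
    ((a0.mul (a1.pow 2)).add ((a0.pow 2).mul a1))).add
    (((a0.pow 3).mul (a0.pow 2)).mul ((a1.pow 3).mul a1))).add
    (((a0.pow 3).mul a0).mul ((a1.pow 3).mul (a1.pow 2)))

theorem isC_AA : IsC 2 AA := by
  have a0 : IsC 2 (xx 0) := IsC.xx (by norm_num)
  have a1 : IsC 2 (xx 1) := IsC.xx (by norm_num)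
  have b0 : IsC 2 (yy 0) := IsC.yy (by norm_num)
  have b1 : IsC 2 (yy 1) := IsC.yy (by norm_num)
  have c1 : IsC 2 (zz 1) := IsC.zz (by norm_num)
  unfold AA pA
  repeat' first
    | with_reducible exact a0
    | with_reducible exact a1
    | with_reducible exact b0
    | with_reducible exact b1
    | with_reducible exact c1
    | with_reducible apply IsC.add
    | with_reducible apply IsC.sub
    | with_reducible apply IsC.neg
    | with_reducible apply IsC.mul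
    | with_reducible apply IsC.pow

theorem isC_AA' : IsC 2 AA' := by
  have a0 : IsC 2 (xx 0) := IsC.xx (by norm_num)
  have a1 : IsC 2 (xx 1) := IsC.xx (by norm_num)
  have b0 : IsC 2 (yy 0) := IsC.yy (by norm_num)
  have b1 : IsC 2 (yy 1) := IsC.yy (by norm_num)
  have c1 : IsC 2 (zz 1) := IsC.zz (by norm_num)
  unfold AA' pA'
  repeat' first
    | with_reducible exact a0
    | with_reducible exact a1
    | with_reducible exact b0
    | with_reducible exact b1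
    | with_reducible exact c1
    | with_reducible apply IsC.add
    | with_reducible apply IsC.sub
    | with_reducible apply IsC.neg
    | with_reducible apply IsC.mul
    | with_reducible apply IsC.pow

theorem isC_xx0 : IsC 1 (xx 0) := IsC.xx (by norm_num)

theorem isC_ww : IsC 3 ww :=
  ((isC_xx0.pow 2).mono (by norm_num)).mul (isC_AA.sh 1) |>.add
    ((isC_xx0.mono (by norm_num)).mul (isC_AA'.sh 1))

theorem DD_xx : DD 1 (xx 0) = 0 := by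
  rw [DD_one, d00, d10, d20]; ring

theorem DD_xx2 : DD 1 (xx 0 ^ 2) = xx 0 * xx 1 := by
  rw [DD_one]
  simp only [map_pow, d00, d10, d20]
  linear_combination (- xx 0 * xx 1) * three_RR

theorem NN_xx : NN 1 (xx 0) = - BB := by
  unfold NN
  simp only [SN, Finset.sum_range_succ, Finset.sum_range_zero]
  norm_num [d00, d10, d20]
  unfold BB pB
  ring

theorem map_sh_mul (m : ℕ) (a b : RR) : sh m (a * b) = sh m a * sh m b := map_mul _ _ _

theorem DD_ww : DD 3 ww = BB * sh 2 (GG ^ 3) := by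
  unfold ww
  rw [DD_add]
  have l1 := leibniz 1 2 (isC_xx0.pow 2) AA
  have l2 := leibniz 1 2 isC_xx0 AA'
  norm_num at l1 l2
  rw [l1, l2, DD_xx2, DD_xx, DD_AA, DD_AA']
  simp only [map_sub, map_neg, map_mul, map_pow, sh_sh, sh_xx]
  norm_num
  unfold BB pB
  ring

theorem cocycle_mul (m n : ℕ) {p q : RR} (hp : IsC m p) (dp : DD m p = 0) (dq : DD n q = 0) :
    DD (m + n) (p * sh m q) = 0 := by
  rw [leibniz m n hp, dp, dq]; simp

theorem DD_NN (n : ℕ) {p : RR} (dp : DD n p = 0) : DD (n + 1) (NN n p) = 0 := by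
  have := NN_DD n p
  rw [dp] at this
  have z : NN (n + 1) 0 = 0 := by
    have := NN_neg (n + 1) 0
    rw [neg_zero] at this
    have h3 : (2 : RR) * NN (n + 1) 0 = 0 := by linear_combination this
    linear_combination 2 * h3 - NN (n + 1) 0 * three_RR
  rw [z] at this
  linear_combination this

theorem DD_NGG : DD 3 (NN 2 GG) = 0 := DD_NN 2 DD_GG

/-- relation (I): `h_1 b_1`-type relation `b_1 h_1 = h_2 b_0`, from `N (ξ_2)` -/
theorem rel_h (s : RR) (hs : s = NN 1 (yy 0)) :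
    BB ^ 3 * sh 2 (xx 0 ^ 3) = xx 0 ^ 9 * sh 1 BB - DD 2 s := by
  subst hs
  have dy : DD 1 (yy 0) = - (xx 0 ^ 3 * sh 1 (xx 0)) := by
    rw [DD_one, e00, e10, e20, sh_xx]; ring
  have h1 := NN_DD 1 (yy 0)
  have dx3 : DD 1 (xx 0 ^ 3) = 0 := by rw [DD_cube, DD_xx]; simp
  have h2 := cartan 1 1 (isC_xx0.pow 3) dx3 DD_xx
  norm_num at h1 h2
  rw [dy, NN_neg, h2, NN_cube, NN_xx] at h1
  simp only [map_neg] at h1
  linear_combination (norm := (simp only [map_pow]; ring)) h1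

/-- the relation `b_1 ^ 2 = - h_1 N(g_0)` with its explicit bounding cochain -/
noncomputable def q1 : RR :=
  - ww + xx 0 ^ 9 * sh 1 vv + NN 2 uu
    + (xx 0 ^ 3 * sh 1 BB) * DD 2 uu * (DD 2 uu - xx 0 ^ 3 * sh 1 BB)

theorem isC_q1 : IsC 3 q1 := by
  have hB : IsC 3 (sh 1 BB) := isC_BB.sh 1
  have hx : IsC 3 (xx 0) := isC_xx0.mono (by norm_num)
  exact (((isC_ww.neg).add ((hx.pow 9).mul (isC_vv.sh 1))).add isC_uu.NN).add
    ((((hx.pow 3).mul hB).mul isC_uu.DD).mul (isC_uu.DD.sub ((hx.pow 3).mul hB)))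

theorem DD_hB : DD 3 (xx 0 ^ 3 * sh 1 BB) = 0 := by
  have dx3 : DD 1 (xx 0 ^ 3) = 0 := by rw [DD_cube, DD_xx]; simp
  exact cocycle_mul 1 2 (isC_xx0.pow 3) dx3 DD_BB

theorem rel_B : DD 3 q1 = BB ^ 3 * sh 2 (BB ^ 3) + xx 0 ^ 3 * sh 1 (NN 2 GG) := by
  have dx3 : DD 1 (xx 0 ^ 3) = 0 := by rw [DD_cube, DD_xx]; simp
  have dx9 : DD 1 (xx 0 ^ 9) = 0 := by
    have : (xx 0 ^ 9 : RR) = (xx 0 ^ 3) ^ 3 := by ring
    rw [this, DD_cube, dx3]; simp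
  have c1 := cartan 1 2 isC_xx0 DD_xx DD_GG
  have c2 := cartan 1 2 (isC_xx0.pow 3) dx3 DD_BB
  have l1 := leibniz 1 2 (isC_xx0.pow 9) vv
  norm_num at c1 c2 l1
  rw [NN_xx] at c1
  rw [NN_cube, NN_xx] at c2
  rw [dx9, DD_vv, zero_mul, zero_add] at l1
  -- split
  have e : xx 0 * sh 1 GG = - (xx 0 ^ 3 * sh 1 BB) + DD 2 uu := by rw [DD_uu]; ring
  have a1 := NN_add 3 (- (xx 0 ^ 3 * sh 1 BB)) (DD 2 uu) (by rw [DD_neg, DD_hB, neg_zero])
    (DD_DD 2 uu)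
  rw [← e, NN_neg, c2, NN_DD 2 uu, c1] at a1
  unfold q1
  rw [DD_add, DD_add, DD_add, DD_neg, DD_ww, l1]
  have e2 : DD 3 (xx 0 ^ 3 * sh 1 BB * DD 2 uu * (DD 2 uu - xx 0 ^ 3 * sh 1 BB))
      = - DD 3 (- (xx 0 ^ 3 * sh 1 BB) * DD 2 uu * (- (xx 0 ^ 3 * sh 1 BB) + DD 2 uu)) := by
    rw [← DD_neg]; congr 1; ring
  rw [e2]
  have e3 : - (xx 0 ^ 3 * sh 1 BB) + DD 2 uu = xx 0 * sh 1 GG := e.symm
  rw [e3]
  linear_combination (norm := (simp only [map_pow]; ring)) a1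

theorem DD_pow (n : ℕ) (p : RR) (k : ℕ) : DD n (p ^ 3 ^ k) = (DD n p) ^ 3 ^ k := by
  induction k with
  | zero => simp
  | succ k ih => rw [pow_succ, pow_mul, DD_cube, ih, ← pow_mul, ← pow_succ]

/-- bounding cochain of `b_1 N(g_1)` -/
noncomputable def tt : RR := NN 3 ww + vv * sh 2 (GG ^ 9)

theorem isC_tt : IsC 4 tt :=
  isC_ww.NN.add ((isC_vv.mono (by norm_num)).mul ((isC_GG.pow 9).sh 2))

theorem DD_tt : DD 4 tt = - (BB ^ 3 * sh 2 ((NN 2 GG) ^ 3)) := by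
  have dg3 : DD 2 (GG ^ 3) = 0 := by rw [DD_cube, DD_GG]; simp
  have dg9 : DD 2 (GG ^ 9) = 0 := by
    have : (GG ^ 9 : RR) = (GG ^ 3) ^ 3 := by ring
    rw [this, DD_cube, dg3]; simp
  have c1 := cartan 2 2 isC_BB DD_BB dg3
  have l1 := leibniz 2 2 isC_vv (GG ^ 9)
  have n1 := NN_DD 3 ww
  norm_num at c1 l1 n1
  rw [DD_ww] at n1
  rw [map_pow] at n1
  rw [c1, NN_cube, ← DD_vv] at n1
  rw [dg9] at l1
  unfold tt
  rw [DD_add, map_pow, l1]
  linear_combination (norm := (simp only [map_pow, map_zero]; ring)) n1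

/-- bounding cochain of `b_2 ^ 3` -/
noncomputable def Yb : RR :=
  BB ^ 9 * sh 2 (q1 ^ 3) - xx 0 ^ 27 * sh 1 tt + (NN 1 (yy 0)) ^ 3 * sh 2 ((NN 2 GG) ^ 3)

theorem isC_yy0 : IsC 1 (yy 0) := IsC.yy (by norm_num)

theorem isC_Yb : IsC 5 Yb :=
  (((isC_BB.pow 9).mono (by norm_num)).mul ((isC_q1.pow 3).sh 2)).sub
    (((isC_xx0.pow 27).mono (by norm_num)).mul (isC_tt.sh 1)) |>.add
    (((isC_yy0.NN.pow 3).mono (by norm_num)).mul ((isC_GG.NN.pow 3).sh 2))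

theorem DD_Yb : DD 5 Yb = BB ^ 9 * sh 2 (BB ^ 9) * sh 4 (BB ^ 9) := by
  have db9 : DD 2 (BB ^ 9) = 0 := by
    have : (BB ^ 9 : RR) = (BB ^ 3) ^ 3 := by ring
    rw [this, DD_cube, DD_cube, DD_BB]; simp
  have dx27 : DD 1 (xx 0 ^ 27) = 0 := by
    have : (xx 0 ^ 27 : RR) = xx 0 ^ 3 ^ 3 := by norm_num
    rw [this, DD_pow, DD_xx]; simp
  have dng : DD 3 ((NN 2 GG) ^ 3) = 0 := by rw [DD_cube, DD_NGG]; simp
  have l1 := leibniz 2 3 (isC_BB.pow 9) (q1 ^ 3)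
  have l2 := leibniz 1 4 (isC_xx0.pow 27) tt
  have l3 := leibniz 2 3 (isC_yy0.NN.pow 3) ((NN 2 GG) ^ 3)
  norm_num at l1 l2 l3
  have r1 : DD 3 (q1 ^ 3) = BB ^ 9 * sh 2 (BB ^ 9) + xx 0 ^ 9 * sh 1 ((NN 2 GG) ^ 3) := by
    rw [DD_cube, rel_B, frob_RR]
    simp only [map_pow]
    ring
  have r2 : BB ^ 9 * sh 2 (xx 0 ^ 9) = xx 0 ^ 27 * sh 1 (BB ^ 3) - DD 2 ((NN 1 (yy 0)) ^ 3) := by
    have := congrArg (fun z : RR => z ^ 3) (rel_h _ rfl)
    simp only [frob_sub] at this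
    rw [DD_cube]
    simp only [map_pow] at this ⊢
    linear_combination this
  rw [db9, r1] at l1
  rw [dx27, DD_tt] at l2
  rw [dng] at l3
  unfold Yb
  rw [DD_add, DD_sub]
  simp only [map_pow] at l1 l2 l3 r2 ⊢
  rw [l1, l2, l3]
  simp only [map_mul, map_add, map_neg, map_pow, map_zero, sh_sh]
  norm_num
  linear_combination ((sh 3) (NN 2 GG)) ^ 3 * r2

/-- bounding cochain of `h_0 h_1` -/
noncomputable def cc : RR := yy 0 - xx 0 ^ 3 * xx 0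

theorem isC_cc : IsC 1 cc := isC_yy0.sub ((isC_xx0.pow 3).mul isC_xx0)

theorem DD_cc : DD 1 cc = xx 0 * sh 1 (xx 0 ^ 3) := by
  unfold cc
  rw [DD_one]
  simp only [map_sub, map_mul, map_pow, d00, d10, d20, e00, e10, e20, sh_xx, frob_RR]
  norm_num
  ring

/-- bounding cochain of `h_0 b_1 ^ 2` -/
noncomputable def Zb : RR := - (xx 0 * sh 1 q1) - cc * sh 1 (NN 2 GG)

theorem isC_Zb : IsC 4 Zb :=
  (((isC_xx0.mono (by norm_num)).mul (isC_q1.sh 1)).neg).sub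
    ((isC_cc.mono (by norm_num)).mul (isC_GG.NN.sh 1))

theorem DD_Zb : DD 4 Zb = xx 0 * sh 1 (BB ^ 3) * sh 3 (BB ^ 3) := by
  have l1 := leibniz 1 3 isC_xx0 q1
  have l2 := leibniz 1 3 isC_cc (NN 2 GG)
  norm_num at l1 l2
  rw [DD_xx, rel_B] at l1
  rw [DD_cc, DD_NGG] at l2
  unfold Zb
  rw [DD_sub, DD_neg, l1, l2]
  simp only [map_mul, map_add, map_neg, map_pow, map_zero, sh_sh]
  norm_num
  ring

theorem cube_R (j : ℕ) (hj : 2 ≤ j) : ∃ Y : RR, IsC 5 Y ∧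
    DD 5 Y = BB ^ 3 ^ j * sh 2 (BB ^ 3 ^ j) * sh 4 (BB ^ 3 ^ j) := by
  obtain ⟨k, rfl⟩ : ∃ k, j = k + 2 := ⟨j - 2, by omega⟩
  refine ⟨Yb ^ 3 ^ k, isC_Yb.pow _, ?_⟩
  have e3 : 3 ^ (k + 2) = 9 * 3 ^ k := by ring
  have e4 : BB ^ 3 ^ (k + 2) = (BB ^ 9) ^ 3 ^ k := by rw [e3, pow_mul]
  rw [e4, DD_pow, DD_Yb, mul_pow, mul_pow, map_pow (sh 2) (BB ^ 9), map_pow (sh 4) (BB ^ 9)]

theorem toda_R (j : ℕ) (hj : 1 ≤ j) : ∃ Y : RR, IsC 6 Y ∧
    DD 6 Y = xx 0 * sh 1 (BB ^ 3 ^ j * sh 2 (BB ^ 3 ^ j) * sh 4 (BB ^ 3 ^ j)) := by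
  rcases Nat.lt_or_eq_of_le hj with hj | hj
  · obtain ⟨Y, hY, h⟩ := cube_R j (by omega)
    refine ⟨- (xx 0 * sh 1 Y), ((isC_xx0.mono (by norm_num)).mul (hY.sh 1)).neg, ?_⟩
    have l := leibniz 1 5 isC_xx0 Y
    norm_num at l
    rw [DD_neg, l, DD_xx, h]
    ring
  · subst hj
    have db3 : DD 2 (BB ^ 3) = 0 := by rw [DD_cube, DD_BB]; simp
    refine ⟨Zb * sh 4 (BB ^ 3), (isC_Zb.mono (by norm_num)).mul ((isC_BB.pow 3).sh 4), ?_⟩
    have l := leibniz 4 2 isC_Zb (BB ^ 3)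
    norm_num at l
    rw [map_pow, l, DD_Zb, db3]
    simp only [map_mul, map_pow, map_zero, sh_sh]
    norm_num
    ring

end Vale.Agent.P236.H68
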