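import Vale.Agent.P236.H68.Trans

/-!
`h_0 b_0 ^ 3` is not a coboundary.
-/

namespace Vale.Agent.P236.H68

open Finset MvPolynomial

theorem coeff_zero_of_lt (q : RR) (v : ℕ × ℕ) (e : ℕ) (M : ℕ × ℕ →₀ ℕ) (h : M v < e) :
    coeff M (q * X v ^ e) = 0 := by
  rw [X_pow_eq_monomial, coeff_mul_monomial']
  have : ¬ (Finsupp.single v e ≤ M) := by
    intro hle
    have := hle v
    rw [Finsupp.single_eq_same] at this
    omega
  simp [this]

/-- coefficients of low degree in the slots `i`, `i + 1` are binomial -/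
def Good (i : ℕ) (q : RR) : Prop :=
  ∀ M0 : ℕ × ℕ →₀ ℕ, (∀ k, M0 (i, k) = 0) → (∀ k, M0 (i + 1, k) = 0) →
    ∃ c : ℕ → ZMod 3, ∀ a b : ℕ, a ≤ 2 → b ≤ 2 →
      coeff (M0 + Finsupp.single (i, 0) a + Finsupp.single (i + 1, 0) b) q
        = (Nat.choose (a + b) a : ZMod 3) * c (a + b)

theorem Good.add {i : ℕ} {p q : RR} (hp : Good i p) (hq : Good i q) : Good i (p + q) := by
  intro M0 h1 h2
  obtain ⟨c, hc⟩ := hp M0 h1 h2
  obtain ⟨e, he⟩ := hq M0 h1 h2
  refine ⟨fun n => c n + e n, fun a b ha hb => ?_⟩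
  rw [coeff_add, hc a b ha hb, he a b ha hb]
  ring

theorem Good.of_zero {i : ℕ} {q : RR}
    (h : ∀ M0 : ℕ × ℕ →₀ ℕ, (∀ k, M0 (i, k) = 0) → (∀ k, M0 (i + 1, k) = 0) →
      ∀ a b : ℕ, a ≤ 2 → b ≤ 2 →
      coeff (M0 + Finsupp.single (i, 0) a + Finsupp.single (i + 1, 0) b) q = 0) : Good i q := by
  intro M0 h1 h2
  exact ⟨fun _ => 0, fun a b ha hb => by rw [h M0 h1 h2 a b ha hb, mul_zero]⟩

theorem Good.C (i : ℕ) (r : ZMod 3) : Good i (MvPolynomial.C r) := by
  classical
  intro M0 h1 h2
  refine ⟨fun n => if n = 0 ∧ M0 = 0 then r else 0, fun a b ha hb => ?_⟩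
  rw [coeff_C]
  by_cases h : a + b = 0 ∧ M0 = 0
  · obtain ⟨h3, h4⟩ := h
    have ha0 : a = 0 := by omega
    have hb0 : b = 0 := by omega
    subst ha0; subst hb0; subst h4
    simp
  · have h' : ¬ ((0 : ℕ × ℕ →₀ ℕ)
        = M0 + Finsupp.single (i, 0) a + Finsupp.single (i + 1, 0) b) := by
      intro e
      apply h
      have e1 := DFunLike.congr_fun e (i, 0)
      have e2 := DFunLike.congr_fun e (i + 1, 0)
      simp [Finsupp.single_apply] at e1 e2
      refine ⟨by omega, ?_⟩
      have ha0 : a = 0 := by omega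
      have hb0 : b = 0 := by omega
      subst ha0; subst hb0
      simpa using e.symm
    rw [if_neg h']
    dsimp only
    rw [if_neg h, mul_zero]

theorem Good.mul_other {i : ℕ} {q : RR} (hq : Good i q) (v : ℕ × ℕ) (hv : v.1 ≠ i)
    (hv' : v.1 ≠ i + 1) : Good i (q * X v) := by
  classical
  intro M0 h1 h2
  have n1 : v ≠ (i, 0) := fun e => hv (by rw [e])
  have n2 : v ≠ (i + 1, 0) := fun e => hv' (by rw [e])
  by_cases hz : M0 v = 0
  · refine ⟨fun _ => 0, fun a b ha hb => ?_⟩
    rw [mul_zero, coeff_mul_X', if_neg]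
    simp [hz, Finsupp.single_apply, n1.symm, n2.symm]
  · obtain ⟨c, hc⟩ := hq (M0 - Finsupp.single v 1) (fun k => by simp [h1 k])
      (fun k => by simp [h2 k])
    refine ⟨c, fun a b ha hb => ?_⟩
    rw [← hc a b ha hb]
    have e : M0 + Finsupp.single (i, 0) a + Finsupp.single (i + 1, 0) b
        = (M0 - Finsupp.single v 1) + Finsupp.single (i, 0) a + Finsupp.single (i + 1, 0) b
          + Finsupp.single v 1 := by
      have : M0 = (M0 - Finsupp.single v 1) + Finsupp.single v 1 := by
        rw [tsub_add_cancel_of_le]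
        intro w
        by_cases hw : v = w
        · subst hw; rw [Finsupp.single_eq_same]; omega
        · simp [Finsupp.single_apply, hw]
      have gen : ∀ u w x y : ℕ × ℕ →₀ ℕ, u + w + x + y = u + x + y + w := by
        intro u w x y
        rw [add_right_comm u w x, add_right_comm (u + x) w y]
      calc M0 + Finsupp.single (i, 0) a + Finsupp.single (i + 1, 0) b
          = (M0 - Finsupp.single v 1) + Finsupp.single v 1 + Finsupp.single (i, 0) a
            + Finsupp.single (i + 1, 0) b := by rw [← this]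
        _ = _ := gen _ _ _ _
    rw [e, coeff_mul_X]

theorem Good.mul_x {i : ℕ} {q : RR} (hq : Good i q) :
    Good i (q * (X (i, 0) + X (i + 1, 0))) := by
  classical
  intro M0 h1 h2
  obtain ⟨c, hc⟩ := hq M0 h1 h2
  refine ⟨fun n => if n = 0 then 0 else c (n - 1), fun a b ha hb => ?_⟩
  rw [mul_add, coeff_add]
  have t1 : coeff (M0 + Finsupp.single (i, 0) a + Finsupp.single (i + 1, 0) b) (q * X (i, 0))
      = if a = 0 then 0 else (Nat.choose (a - 1 + b) (a - 1) : ZMod 3) * c (a - 1 + b) := by
    by_cases ha0 : a = 0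
    · subst ha0
      rw [if_pos rfl, coeff_mul_X', if_neg]
      simp [h1, Finsupp.single_apply]
    · obtain ⟨a, rfl⟩ : ∃ k, a = k + 1 := ⟨a - 1, by omega⟩
      rw [if_neg ha0, Nat.add_sub_cancel, ← hc a b (by omega) hb]
      have e : M0 + Finsupp.single (i, 0) (a + 1) + Finsupp.single (i + 1, 0) b
          = M0 + Finsupp.single (i, 0) a + Finsupp.single (i + 1, 0) b
            + Finsupp.single (i, 0) 1 := by
        rw [Finsupp.single_add]; abel
      rw [e, coeff_mul_X]
  have t2 : coeff (M0 + Finsupp.single (i, 0) a + Finsupp.single (i + 1, 0) b)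
      (q * X (i + 1, 0))
      = if b = 0 then 0 else (Nat.choose (a + (b - 1)) a : ZMod 3) * c (a + (b - 1)) := by
    by_cases hb0 : b = 0
    · subst hb0
      rw [if_pos rfl, coeff_mul_X', if_neg]
      simp [h2, Finsupp.single_apply]
    · obtain ⟨b, rfl⟩ : ∃ k, b = k + 1 := ⟨b - 1, by omega⟩
      rw [if_neg hb0, Nat.add_sub_cancel, ← hc a b ha (by omega)]
      have e : M0 + Finsupp.single (i, 0) a + Finsupp.single (i + 1, 0) (b + 1)
          = M0 + Finsupp.single (i, 0) a + Finsupp.single (i + 1, 0) b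
            + Finsupp.single (i + 1, 0) 1 := by
        rw [Finsupp.single_add]; abel
      rw [e, coeff_mul_X]
  rw [t1, t2]
  rcases Nat.eq_zero_or_pos a with ha0 | ha0
  · subst ha0
    rcases Nat.eq_zero_or_pos b with hb0 | hb0
    · subst hb0; simp
    · obtain ⟨b, rfl⟩ : ∃ k, b = k + 1 := ⟨b - 1, by omega⟩
      simp
  · obtain ⟨a, rfl⟩ : ∃ k, a = k + 1 := ⟨a - 1, by omega⟩
    rcases Nat.eq_zero_or_pos b with hb0 | hb0
    · subst hb0; simp
    · obtain ⟨b, rfl⟩ : ∃ k, b = k + 1 := ⟨b - 1, by omega⟩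
      have e1 : a + 1 + (b + 1) = (a + b + 1) + 1 := by ring
      have e2 : a + (b + 1) = a + b + 1 := by ring
      have e3 : a + 1 + b = a + b + 1 := by ring
      simp only [Nat.add_sub_cancel, Nat.add_eq_zero_iff, one_ne_zero, and_false, if_false, e1,
        e2, e3]
      rw [Nat.choose_succ_succ (a + b + 1) a]
      push_cast
      ring

theorem good_del (i : ℕ) (p : RR) : Good i (del (i + 1) p) := by
  classical
  induction p using MvPolynomial.induction_on with
  | C r =>
    have : del (i + 1) (MvPolynomial.C r) = MvPolynomial.C r := (del (i + 1)).commutes r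
    rw [this]; exact Good.C i r
  | add p q hp hq => rw [map_add]; exact hp.add hq
  | mul_X p v hp =>
    rw [map_mul]
    obtain ⟨s, k⟩ := v
    have e : (X (s, k) : RR) = xi s (k + 1) := rfl
    rw [e, del_xi]
    unfold face
    rcases lt_trichotomy s i with h | h | h
    · have h1 : s + 1 < i + 1 := by omega
      rw [if_pos h1]
      exact hp.mul_other (s, k) (by dsimp only; omega) (by dsimp only; omega)
    · subst h
      rw [if_neg (lt_irrefl _), if_pos rfl]
      rcases Nat.eq_zero_or_pos k with hk | hk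
      · subst hk
        rw [mulS_one _ _ rfl rfl]
        exact hp.mul_x
      · refine Good.of_zero fun M0 h1 h2 a b ha hb => ?_
        unfold mulS
        rw [Finset.mul_sum, coeff_sum]
        refine Finset.sum_eq_zero fun ab hab => ?_
        obtain ⟨u, w⟩ := ab
        have huw : u + w = k + 1 := Finset.HasAntidiagonal.mem_antidiagonal.1 hab
        dsimp only
        have zi : ∀ l, 0 < l → (M0 + Finsupp.single (s, 0) a + Finsupp.single (s + 1, 0) b :
            ℕ × ℕ →₀ ℕ) (s, l) = 0 := by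
          intro l hl
          have : l ≠ 0 := by omega
          simp [h1, Finsupp.single_apply, this.symm]
        have zi' : ∀ l, 0 < l → (M0 + Finsupp.single (s, 0) a + Finsupp.single (s + 1, 0) b :
            ℕ × ℕ →₀ ℕ) (s + 1, l) = 0 := by
          intro l hl
          have : l ≠ 0 := by omega
          simp [h2, Finsupp.single_apply, this.symm]
        have z0 : (M0 + Finsupp.single (s, 0) a + Finsupp.single (s + 1, 0) b :
            ℕ × ℕ →₀ ℕ) (s, 0) = a := by
          simp [h1, Finsupp.single_apply]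
        rcases w with _ | _ | w
        · -- w = 0
          obtain rfl : u = k + 1 := by omega
          have : del (s + 1) p * (xi s (k + 1) ^ 3 ^ 0 * xi (s + 1) 0)
              = del (s + 1) p * X (s, k) ^ 1 := by simp [xi]
          rw [this]
          exact coeff_zero_of_lt _ _ _ _ (by rw [zi k hk]; norm_num)
        · -- w = 1
          obtain rfl : u = k := by omega
          obtain ⟨u, rfl⟩ : ∃ l, u = l + 1 := ⟨u - 1, by omega⟩
          have : del (s + 1) p * (xi s (u + 1) ^ 3 ^ (0 + 1) * xi (s + 1) (0 + 1))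
              = (del (s + 1) p * X (s + 1, 0)) * X (s, u) ^ 3 := by
            simp [xi]; ring
          rw [this]
          refine coeff_zero_of_lt _ _ _ _ ?_
          rcases Nat.eq_zero_or_pos u with hu | hu
          · subst hu; rw [z0]; omega
          · rw [zi u hu]; norm_num
        · have : del (s + 1) p * (xi s u ^ 3 ^ (w + 1 + 1) * xi (s + 1) (w + 1 + 1))
              = (del (s + 1) p * xi s u ^ 3 ^ (w + 1 + 1)) * X (s + 1, w + 1) ^ 1 := by
            simp [xi]; ring
          rw [this]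
          exact coeff_zero_of_lt _ _ _ _ (by rw [zi' (w + 1) (by omega)]; norm_num)
    · have h1 : ¬ (s + 1 < i + 1) := by omega
      have h2 : ¬ (s + 1 = i + 1) := by omega
      rw [if_neg h1, if_neg h2]
      exact hp.mul_other (s + 1, k) (by dsimp only; omega) (by dsimp only; omega)

theorem coeff_del_three (i : ℕ) (p : RR) (M0 : ℕ × ℕ →₀ ℕ) (h1 : ∀ k, M0 (i, k) = 0)
    (h2 : ∀ k, M0 (i + 1, k) = 0) (a b : ℕ) (ha : a ≤ 2) (hb : b ≤ 2) (hab : a + b = 3) :
    coeff (M0 + Finsupp.single (i, 0) a + Finsupp.single (i + 1, 0) b) (del (i + 1) p) = 0 := by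
  obtain ⟨c, hc⟩ := good_del i p M0 h1 h2
  rw [hc a b ha hb, hab]
  have : (Nat.choose 3 a : ZMod 3) = 0 := by
    interval_cases a
    · omega
    · decide
    · decide
  rw [this, zero_mul]

end Vale.Agent.P236.H68
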