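import Vale.Agent.P236.H68.NonZ

/-!
`h_0 b_0 ^ 3` is not a coboundary, in the cobar complexes of `P_*` and of `A_*`.
-/

namespace Vale.Agent.P236.H68

open Finset MvPolynomial

/-- the exponent of `x_0 x_1² x_2 x_3² x_4 x_5² x_6` -/
noncomputable def MM : ℕ × ℕ →₀ ℕ :=
  Finsupp.single (0, 0) 1 + Finsupp.single (1, 0) 2 + Finsupp.single (2, 0) 1
    + Finsupp.single (3, 0) 2 + Finsupp.single (4, 0) 1 + Finsupp.single (5, 0) 2
    + Finsupp.single (6, 0) 1

theorem coeff_sign (M : ℕ × ℕ →₀ ℕ) (i : ℕ) (q : RR) :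
    coeff M ((-1) ^ i * q) = (-1) ^ i * coeff M q := by
  have : ((-1 : RR) ^ i) = MvPolynomial.C ((-1) ^ i) := by simp
  rw [this, coeff_C_mul]

theorem coeff_face_zero (p : RR) : coeff MM (del 0 p) = 0 := by
  have e : del 0 p = sh 1 p := by
    have := del_sh_lo 0 0 le_rfl p
    rwa [sh_zero] at this
  rw [e, sh]
  refine coeff_rename_eq_zero _ _ _ fun u hu => ?_
  exfalso
  have h1 : (Finsupp.mapDomain (fun v : ℕ × ℕ => (v.1 + 1, v.2)) u) (0, 0) = 0 := by
    refine Finsupp.mapDomain_notin_range _ _ ?_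
    rintro ⟨v, hv⟩
    simp at hv
  rw [hu] at h1
  simp [MM, Finsupp.single_apply] at h1

theorem coeff_face_last {p : RR} (hp : IsC 6 p) : coeff MM p = 0 := by
  classical
  by_contra h
  have h1 := MvPolynomial.mem_supported.1 hp
  have h2 : ((6, 0) : ℕ × ℕ) ∈ p.vars := by
    rw [mem_vars]
    refine ⟨MM, mem_support_iff.2 h, ?_⟩
    rw [Finsupp.mem_support_iff]
    simp [MM, Finsupp.single_apply]
  have h3 : (6 : ℕ) < 6 := h1 h2
  omega

theorem coeff_DD {p : RR} (hp : IsC 6 p) : coeff MM (DD 6 p) = 0 := by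
  unfold DD
  rw [coeff_sum]
  refine Finset.sum_eq_zero fun i hi => ?_
  rw [coeff_sign]
  have hi' : i < 8 := Finset.mem_range.1 hi
  suffices h : coeff MM (del i p) = 0 by rw [h, mul_zero]
  interval_cases i
  · exact coeff_face_zero p
  · have e : MM = (Finsupp.single (2, 0) 1 + Finsupp.single (3, 0) 2 + Finsupp.single (4, 0) 1
        + Finsupp.single (5, 0) 2 + Finsupp.single (6, 0) 1)
        + Finsupp.single (0, 0) 1 + Finsupp.single (0 + 1, 0) 2 := by
      unfold MM; abel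
    rw [e]
    exact coeff_del_three 0 p _ (fun k => by simp [Finsupp.single_apply])
      (fun k => by simp [Finsupp.single_apply]) 1 2 (by norm_num) (by norm_num) (by norm_num)
  · have e : MM = (Finsupp.single (0, 0) 1 + Finsupp.single (3, 0) 2 + Finsupp.single (4, 0) 1
        + Finsupp.single (5, 0) 2 + Finsupp.single (6, 0) 1)
        + Finsupp.single (1, 0) 2 + Finsupp.single (1 + 1, 0) 1 := by
      unfold MM; abel
    rw [e]
    exact coeff_del_three 1 p _ (fun k => by simp [Finsupp.single_apply])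
      (fun k => by simp [Finsupp.single_apply]) 2 1 (by norm_num) (by norm_num) (by norm_num)
  · have e : MM = (Finsupp.single (0, 0) 1 + Finsupp.single (1, 0) 2 + Finsupp.single (4, 0) 1
        + Finsupp.single (5, 0) 2 + Finsupp.single (6, 0) 1)
        + Finsupp.single (2, 0) 1 + Finsupp.single (2 + 1, 0) 2 := by
      unfold MM; abel
    rw [e]
    exact coeff_del_three 2 p _ (fun k => by simp [Finsupp.single_apply])
      (fun k => by simp [Finsupp.single_apply]) 1 2 (by norm_num) (by norm_num) (by norm_num)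
  · have e : MM = (Finsupp.single (0, 0) 1 + Finsupp.single (1, 0) 2 + Finsupp.single (2, 0) 1
        + Finsupp.single (5, 0) 2 + Finsupp.single (6, 0) 1)
        + Finsupp.single (3, 0) 2 + Finsupp.single (3 + 1, 0) 1 := by
      unfold MM; abel
    rw [e]
    exact coeff_del_three 3 p _ (fun k => by simp [Finsupp.single_apply])
      (fun k => by simp [Finsupp.single_apply]) 2 1 (by norm_num) (by norm_num) (by norm_num)
  · have e : MM = (Finsupp.single (0, 0) 1 + Finsupp.single (1, 0) 2 + Finsupp.single (2, 0) 1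
        + Finsupp.single (3, 0) 2 + Finsupp.single (6, 0) 1)
        + Finsupp.single (4, 0) 1 + Finsupp.single (4 + 1, 0) 2 := by
      unfold MM; abel
    rw [e]
    exact coeff_del_three 4 p _ (fun k => by simp [Finsupp.single_apply])
      (fun k => by simp [Finsupp.single_apply]) 1 2 (by norm_num) (by norm_num) (by norm_num)
  · have e : MM = (Finsupp.single (0, 0) 1 + Finsupp.single (1, 0) 2 + Finsupp.single (2, 0) 1
        + Finsupp.single (3, 0) 2 + Finsupp.single (4, 0) 1)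
        + Finsupp.single (5, 0) 2 + Finsupp.single (5 + 1, 0) 1 := by
      unfold MM; abel
    rw [e]
    exact coeff_del_three 5 p _ (fun k => by simp [Finsupp.single_apply])
      (fun k => by simp [Finsupp.single_apply]) 2 1 (by norm_num) (by norm_num) (by norm_num)
  · rw [hp.del_eq (by norm_num)]
    exact coeff_face_last hp

theorem xx_eq (s : ℕ) : xx s = X (s, 0) := rfl

theorem coeff_target :
    coeff MM (xx 0 * sh 1 (BB * sh 2 BB * sh 4 BB)) = 1 := by
  have e : xx 0 * sh 1 (BB * sh 2 BB * sh 4 BB)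
      = (xx 0 * xx 1 * (xx 3 * xx 4 ^ 2 + xx 3 ^ 2 * xx 4) * (xx 5 * xx 6 ^ 2 + xx 5 ^ 2 * xx 6))
          * X (2, 0) ^ 2
        + (xx 0 * xx 1 ^ 2 * xx 2 * xx 3 * (xx 5 * xx 6 ^ 2 + xx 5 ^ 2 * xx 6)) * X (4, 0) ^ 2
        + (xx 0 * xx 1 ^ 2 * xx 2 * xx 3 ^ 2 * xx 4 * xx 5) * X (6, 0) ^ 2
        + monomial MM 1 := by
    have hm : (monomial MM 1 : RR) = xx 0 * xx 1 ^ 2 * xx 2 * xx 3 ^ 2 * xx 4 * xx 5 ^ 2 * xx 6 := by
      unfold MM
      simp only [monomial_add_single, xx_eq, pow_one]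
      have : (monomial (Finsupp.single ((0, 0) : ℕ × ℕ) 1) (1 : ZMod 3) : RR) = X (0, 0) := rfl
      rw [this]
    rw [hm]
    unfold BB pB
    simp only [map_mul, map_add, map_pow, sh_xx, sh_sh]
    norm_num
    rw [← xx_eq 2, ← xx_eq 4, ← xx_eq 6]
    ring
  rw [e, coeff_add, coeff_add, coeff_add, coeff_zero_of_lt, coeff_zero_of_lt, coeff_zero_of_lt,
    coeff_monomial, if_pos rfl]
  · norm_num
  · simp [MM, Finsupp.single_apply]
  · simp [MM, Finsupp.single_apply]
  · simp [MM, Finsupp.single_apply]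

theorem emb_isC {n : ℕ} (y : Cob n) : IsC n (emb n y) := by
  refine MvPolynomial.mem_supported.2 ?_
  intro v hv
  have := MvPolynomial.vars_rename (fun v : Fin n × ℕ => ((v.1 : ℕ), v.2)) y hv
  obtain ⟨w, -, rfl⟩ := Finset.mem_image.1 this
  exact w.1.2

theorem not_toda_zero_P : ¬ ∃ y : Cob 6, d 6 y = cup (h 0) (cup (cup (b 0) (b 0)) (b 0)) := by
  rintro ⟨y, hy⟩
  have h1 := emb_d 6 y
  rw [hy] at h1
  have h2 := emb_hcube 0
  have h3 : DD 6 (emb 6 y) = xx 0 * sh 1 (BB * sh 2 BB * sh 4 BB) := by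
    rw [← h1]
    refine h2.trans ?_
    norm_num
  have h4 : coeff MM (DD 6 (emb 6 y)) = 0 := coeff_DD (emb_isC y)
  rw [h3, coeff_target] at h4
  exact one_ne_zero h4

theorem zero_sq {n : ℕ} (m : TauV n) :
    (0 : TauV n →ₗ[ZMod 3] Cob n) m * (0 : TauV n →ₗ[ZMod 3] Cob n) m = 0 := by
  rw [LinearMap.zero_apply, mul_zero]

theorem prj_comm (n : ℕ) (x : Cob n) (y : ExtT n) :
    Commute (AlgHom.id (ZMod 3) (Cob n) x) (liftE n (0 : TauV n →ₗ[ZMod 3] Cob n) zero_sq y) :=
  Commute.all _ _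

/-- the projection `A_*^{⊗ n} → P_*^{⊗ n}` which kills the `τ`'s -/
noncomputable def prj (n : ℕ) : CobA n →ₐ[ZMod 3] Cob n :=
  liftA n (AlgHom.id (ZMod 3) (Cob n)) (liftE n (0 : TauV n →ₗ[ZMod 3] Cob n) zero_sq) (prj_comm n)

theorem prj_inc (n : ℕ) (p : Cob n) : prj n (inc n p) = p :=
  liftA_inc n (AlgHom.id (ZMod 3) (Cob n)) (liftE n (0 : TauV n →ₗ[ZMod 3] Cob n) zero_sq)
    (prj_comm n) p

theorem prj_tauT {n : ℕ} (s : Fin n) (k : ℕ) : prj n (tauT s k) = 0 := by
  refine (liftA_incE n (AlgHom.id (ZMod 3) (Cob n))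
    (liftE n (0 : TauV n →ₗ[ZMod 3] Cob n) zero_sq) (prj_comm n) (iotaT n (tauV s k))).trans ?_
  exact liftE_iota n (0 : TauV n →ₗ[ZMod 3] Cob n) zero_sq (tauV s k)

theorem prj_cofTau {n : ℕ} (i : ℕ) (s : Fin n) (k : ℕ) : prj (n + 1) (cofTau i s k) = 0 := by
  unfold cofTau
  split_ifs
  · exact prj_tauT _ _
  · rw [map_add, prj_tauT, map_sum, zero_add]
    refine Finset.sum_eq_zero fun ab _ => ?_
    rw [map_mul, prj_tauT, mul_zero]
  · exact prj_tauT _ _

/-- two algebra maps on `CobA n` agree if they agree on the `ξ`'s and the `τ`'s -/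
theorem cobA_ext {n : ℕ} {A : Type*} [Semiring A] [Algebra (ZMod 3) A]
    {f g : CobA n →ₐ[ZMod 3] A} (H : ∀ p, f (inc n p) = g (inc n p))
    (H' : ∀ s k, f (tauT s k) = g (tauT s k)) : f = g := by
  refine Algebra.TensorProduct.ext (R := ZMod 3) (S := ZMod 3) (A := Cob n) (B := ExtT n)
    (C := A) (f := f) (g := g) (AlgHom.ext H) ?_
  refine ExteriorAlgebra.hom_ext (R := ZMod 3) (M := TauV n) (A := A) ?_
  refine Finsupp.lhom_ext' fun v => LinearMap.ext_ring ?_
  exact H' v.1 v.2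

theorem prj_cofA (n : ℕ) (i : ℕ) (z : CobA n) :
    prj (n + 1) (cofA n i z) = cof n i (prj n z) := by
  have : (prj (n + 1)).comp (cofA n i) = (cof n i).comp (prj n) := by
    refine cobA_ext (fun p => ?_) (fun s k => ?_)
    · rw [AlgHom.comp_apply, AlgHom.comp_apply, cofA_inc, prj_inc, prj_inc]
    · rw [AlgHom.comp_apply, AlgHom.comp_apply, cofA_tauT, prj_tauT, prj_cofTau, map_zero]
  exact DFunLike.congr_fun this z

theorem prj_dA (n : ℕ) (z : CobA n) : prj (n + 1) (dA n z) = d n (prj n z) := by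
  unfold dA d
  rw [map_sum]
  refine Finset.sum_congr rfl fun i _ => ?_
  rw [map_mul, map_pow, map_neg, map_one, prj_cofA]

theorem not_toda_zero_A : ¬ IsCob 6 (inc 7 (cup (h 0) (cup (cup (b 0) (b 0)) (b 0)))) := by
  rintro ⟨y, hy⟩
  refine not_toda_zero_P ⟨prj 6 y, ?_⟩
  rw [← prj_dA, hy, prj_inc]

end Vale.Agent.P236.H68
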