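import Vale.Agent.P236.H68.Sh

/-!
Explicit cochains and the relations `h_0 g_0 = - h_1 b_0`, `b_0 g_1 = 0`, `N b_0 = 0`,
`N h_0 = - b_0` in the cobar complex at the prime three.
-/

namespace Vale.Agent.P236.H68

open Finset

theorem DD_one (p : RR) : DD 1 p = del 0 p - del 1 p + del 2 p := by
  simp [DD, Finset.sum_range_succ]; ring

theorem DD_two (p : RR) : DD 2 p = del 0 p - del 1 p + del 2 p - del 3 p := by
  simp [DD, Finset.sum_range_succ]; ring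

theorem mulS_one {R : Type*} [CommSemiring R] (g h : ℕ → R) (hg : g 0 = 1) (hh : h 0 = 1) :
    mulS g h 1 = g 1 + h 1 := by
  simp [mulS, Finset.Nat.antidiagonal_succ, hg, hh, add_comm]

theorem mulS_two {R : Type*} [CommSemiring R] (g h : ℕ → R) (hg : g 0 = 1) (hh : h 0 = 1) :
    mulS g h 2 = g 2 + g 1 ^ 3 * h 1 + h 2 := by
  simp [mulS, Finset.Nat.antidiagonal_succ, hg, hh]; ring

theorem mulS_three {R : Type*} [CommSemiring R] (g h : ℕ → R) (hg : g 0 = 1) (hh : h 0 = 1) :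
    mulS g h 3 = g 3 + g 2 ^ 3 * h 1 + (g 1 ^ 3) ^ 3 * h 2 + h 3 := by
  simp [mulS, Finset.Nat.antidiagonal_succ, hg, hh]; ring

/-- `ξ_1`, `ξ_2`, `ξ_3` in slot `s` -/
noncomputable def xx (s : ℕ) : RR := xi s 1
noncomputable def yy (s : ℕ) : RR := xi s 2
noncomputable def zz (s : ℕ) : RR := xi s 3

theorem IsC.xx {n s : ℕ} (h : s < n) : IsC n (xx s) := IsC.xi h _
theorem IsC.yy {n s : ℕ} (h : s < n) : IsC n (yy s) := IsC.xi h _
theorem IsC.zz {n s : ℕ} (h : s < n) : IsC n (zz s) := IsC.xi h _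

theorem del_xx_lt {i s : ℕ} (h : s + 1 < i) : del i (xx s) = xx s := by
  rw [xx, del_xi]; simp [face, h]
theorem del_yy_lt {i s : ℕ} (h : s + 1 < i) : del i (yy s) = yy s := by
  rw [yy, del_xi]; simp [face, h]
theorem del_zz_lt {i s : ℕ} (h : s + 1 < i) : del i (zz s) = zz s := by
  rw [zz, del_xi]; simp [face, h]

theorem del_xx_gt {i s : ℕ} (h : i < s + 1) : del i (xx s) = xx (s + 1) := by
  have h1 : ¬ (s + 1 < i) := by omega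
  have h2 : ¬ (s + 1 = i) := by omega
  rw [xx, del_xi]; simp [face, h1, h2, xx]
theorem del_yy_gt {i s : ℕ} (h : i < s + 1) : del i (yy s) = yy (s + 1) := by
  have h1 : ¬ (s + 1 < i) := by omega
  have h2 : ¬ (s + 1 = i) := by omega
  rw [yy, del_xi]; simp [face, h1, h2, yy]
theorem del_zz_gt {i s : ℕ} (h : i < s + 1) : del i (zz s) = zz (s + 1) := by
  have h1 : ¬ (s + 1 < i) := by omega
  have h2 : ¬ (s + 1 = i) := by omega
  rw [zz, del_xi]; simp [face, h1, h2, zz]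

theorem del_xx_eq (s : ℕ) : del (s + 1) (xx s) = xx s + xx (s + 1) := by
  rw [xx, del_xi]
  simp only [face, lt_self_iff_false, if_false, if_true]
  rw [mulS_one _ _ rfl rfl]; rfl
theorem del_yy_eq (s : ℕ) : del (s + 1) (yy s) = yy s + xx s ^ 3 * xx (s + 1) + yy (s + 1) := by
  rw [yy, del_xi]
  simp only [face, lt_self_iff_false, if_false, if_true]
  rw [mulS_two _ _ rfl rfl]; rfl
theorem del_zz_eq (s : ℕ) : del (s + 1) (zz s)
    = zz s + yy s ^ 3 * xx (s + 1) + (xx s ^ 3) ^ 3 * yy (s + 1) + zz (s + 1) := by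
  rw [zz, del_xi]
  simp only [face, lt_self_iff_false, if_false, if_true]
  rw [mulS_three _ _ rfl rfl]; rfl

theorem sh_xx (m s : ℕ) : sh m (xx s) = xx (s + m) := sh_xi m s 1
theorem sh_yy (m s : ℕ) : sh m (yy s) = yy (s + m) := sh_xi m s 2
theorem sh_zz (m s : ℕ) : sh m (zz s) = zz (s + m) := sh_xi m s 3

section poly

/-- first part of the cochain bounding `b_0 g_1` -/
noncomputable def pA (a0 b0 a1 b1 c1 : RR) : RR :=
  -b0 * (b1^3) + b0 * (a1^3) * ((a1^3)^3) - a0 * (a1^3) * (b1^3) - a0 * (a1^3)^2 * ((a1^3)^3)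
    - (a0^3) * c1 + (a0^3) * a1 * (b1^3) + (a0^3) * ((a1^3)^3) * b1 - (a0^3) * a1 * (a1^3) *
    ((a1^3)^3) + (a0^3) * b0 * ((a1^3)^3) - a0 * (a0^3) * (b1^3) + a0 * (a0^3) * (a1^3) *
    ((a1^3)^3) - a0 * (a0^3)^2 * ((a1^3)^3)

/-- second part of the cochain bounding `b_0 g_1` -/
noncomputable def pA' (a0 b0 a1 b1 c1 : RR) : RR :=
  -b0 * c1 + b0 * a1 * (b1^3) + b0 * ((a1^3)^3) * b1 - b0 * a1 * (a1^3) * ((a1^3)^3) - b0^2 *
    ((a1^3)^3) + a0 * b0 * (b1^3) - a0 * b0 * (a1^3) * ((a1^3)^3) - a0^2 * (a1^3) * (b1^3) -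
    a0^2 * (a1^3)^2 * ((a1^3)^3) + a0 * (a0^3) * c1 - a0 * (a0^3) * a1 * (b1^3) - a0 *
    (a0^3) * ((a1^3)^3) * b1 + a0 * (a0^3) * a1 * (a1^3) * ((a1^3)^3) - a0 * (a0^3) * b0 *
    ((a1^3)^3) - a0^2 * (a0^3) * (b1^3) + a0^2 * (a0^3) * (a1^3) * ((a1^3)^3) - a0^2 *
    (a0^3)^2 * ((a1^3)^3)

noncomputable def pu (a0 a1 b1 : RR) : RR :=
  a0 * a1 * b1 - a0^2 * b1 - a0 * (a0^3) * a1^2 - a0^2 * (a0^3) * a1

noncomputable def pv (a0 a1 : RR) : RR :=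
  - (a0 ^ 3 + a1 ^ 3) ^ 2 * (a0 * a1 ^ 2 + a0 ^ 2 * a1)
    + (a0 ^ 3 * a0 ^ 2) * (a1 ^ 3 * a1) + (a0 ^ 3 * a0) * (a1 ^ 3 * a1 ^ 2)

noncomputable def pB (a0 a1 : RR) : RR := a0 * a1 ^ 2 + a0 ^ 2 * a1

noncomputable def pG (a0 b0 a1 : RR) : RR := b0 * a1 - a0 ^ 3 * a1 ^ 2

theorem keyA (x0 x1 x2 y0 y1 y2 z1 z2 : RR) :
    pA x1 y1 x2 y2 z2
      - pA (x0 + x1) (y0 + x0 ^ 3 * x1 + y1) x2 y2 z2
      + pA x0 y0 (x1 + x2) (y1 + x1 ^ 3 * x2 + y2)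
          (z1 + y1 ^ 3 * x2 + (x1 ^ 3) ^ 3 * y2 + z2)
      - pA x0 y0 x1 y1 z1 = - (x0 * pG x1 y1 x2 ^ 3) := by
  unfold pA pG
  simp only [frob_RR, frob_sub, mul_pow]
  linear_combination (-x0*x1^3*x2^12 - x0*x1^9*x2^6 - x0*x1^12*x2^3 + x0^3*x1*y2^3 - x0^3*x1*x2^12 +
    x0^4*x1^3*x2^9) * three_RR

theorem keyA' (x0 x1 x2 y0 y1 y2 z1 z2 : RR) :
    pA' x1 y1 x2 y2 z2
      - pA' (x0 + x1) (y0 + x0 ^ 3 * x1 + y1) x2 y2 z2
      + pA' x0 y0 (x1 + x2) (y1 + x1 ^ 3 * x2 + y2)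
          (z1 + y1 ^ 3 * x2 + (x1 ^ 3) ^ 3 * y2 + z2)
      - pA' x0 y0 x1 y1 z1
      = x0 * pA x1 y1 x2 y2 z2 - x0 ^ 2 * pG x1 y1 x2 ^ 3 := by
  unfold pA pA' pG
  simp only [frob_RR, frob_sub, mul_pow]
  linear_combination (y0*y1*x2^9 + x0*x1*x2^3*y2^3 + x0*x1*x2^15 + x0*x1^4*y2^3 - x0*x1^4*x2^12 + x0*x1^7*x2^9 -
    x0^2*x1^3*x2^12 - x0^2*x1^9*x2^6 - x0^2*x1^12*x2^3 + x0^3*x1*y1*x2^9 + x0^3*x1^5*x2^9 +
    x0^3*y0*x1*x2^9 + 2*x0^4*x1^4*x2^9 + x0^5*x1^3*x2^9 + x0^6*x1^2*x2^9 + x0^7*x1*x2^9) * three_RR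

theorem keyu (x0 x1 x2 y1 y2 : RR) :
    pu x1 x2 y2 - pu (x0 + x1) x2 y2 + pu x0 (x1 + x2) (y1 + x1 ^ 3 * x2 + y2) - pu x0 x1 y1
      = x0 * pG x1 y1 x2 + x0 ^ 3 * pB x1 x2 := by
  unfold pu pG pB
  simp only [frob_RR]
  linear_combination (x0*x1*y2 + x0*x1^3*x2^2 + x0*x1^4*x2) * three_RR

theorem keyv (x0 x1 x2 : RR) :
    pv x1 x2 - pv (x0 + x1) x2 + pv x0 (x1 + x2) - pv x0 x1
      = SN (fun i => if i = 0 then pB x1 x2 else if i = 1 then - pB (x0 + x1) x2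
          else if i = 2 then pB x0 (x1 + x2) else - pB x0 x1) 4 := by
  simp only [SN, Finset.sum_range_succ, Finset.sum_range_zero]
  unfold pv pB
  simp only [frob_RR]
  norm_num
  linear_combination (x0*x1^3*x2^5 + x0*x1^4*x2^4 + 2*x0^2*x1^2*x2^5 + 3*x0^2*x1^3*x2^4 + x0^2*x1^4*x2^3 +
    x0^3*x1*x2^5 + 2*x0^3*x1^2*x2^4 - x0^3*x1^4*x2^2 - 2*x0^4*x1^2*x2^3 - 3*x0^4*x1^3*x2^2 -
    x0^4*x1^4*x2 - x0^5*x1*x2^3 - 2*x0^5*x1^2*x2^2 - x0^5*x1^3*x2) * three_RR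

end poly

theorem three_SN4 (y : ℕ → RR) : SN y 4 = - (y 0 * y 1 * (y 0 + y 1))
    - (y 0 + y 1) * y 2 * (y 0 + y 1 + y 2) - (y 0 + y 1 + y 2) * y 3 * (y 0 + y 1 + y 2 + y 3) := by
  simp only [SN, Finset.sum_range_succ, Finset.sum_range_zero]
  ring

noncomputable def BB : RR := pB (xx 0) (xx 1)
noncomputable def GG : RR := pG (xx 0) (yy 0) (xx 1)
noncomputable def uu : RR := pu (xx 0) (xx 1) (yy 1)
noncomputable def vv : RR := pv (xx 0) (xx 1)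
noncomputable def AA : RR := pA (xx 0) (yy 0) (xx 1) (yy 1) (zz 1)
noncomputable def AA' : RR := pA' (xx 0) (yy 0) (xx 1) (yy 1) (zz 1)
noncomputable def ww : RR := xx 0 ^ 2 * sh 1 AA + xx 0 * sh 1 AA'

theorem d00 : del 0 (xx 0) = xx 1 := del_xx_gt (by norm_num)
theorem d01 : del 0 (xx 1) = xx 2 := del_xx_gt (by norm_num)
theorem d10 : del 1 (xx 0) = xx 0 + xx 1 := del_xx_eq 0
theorem d11 : del 1 (xx 1) = xx 2 := del_xx_gt (by norm_num)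
theorem d20 : del 2 (xx 0) = xx 0 := del_xx_lt (by norm_num)
theorem d21 : del 2 (xx 1) = xx 1 + xx 2 := del_xx_eq 1
theorem d30 : del 3 (xx 0) = xx 0 := del_xx_lt (by norm_num)
theorem d31 : del 3 (xx 1) = xx 1 := del_xx_lt (by norm_num)
theorem e00 : del 0 (yy 0) = yy 1 := del_yy_gt (by norm_num)
theorem e01 : del 0 (yy 1) = yy 2 := del_yy_gt (by norm_num)
theorem e10 : del 1 (yy 0) = yy 0 + xx 0 ^ 3 * xx 1 + yy 1 := del_yy_eq 0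
theorem e11 : del 1 (yy 1) = yy 2 := del_yy_gt (by norm_num)
theorem e20 : del 2 (yy 0) = yy 0 := del_yy_lt (by norm_num)
theorem e21 : del 2 (yy 1) = yy 1 + xx 1 ^ 3 * xx 2 + yy 2 := del_yy_eq 1
theorem e30 : del 3 (yy 0) = yy 0 := del_yy_lt (by norm_num)
theorem e31 : del 3 (yy 1) = yy 1 := del_yy_lt (by norm_num)
theorem f01 : del 0 (zz 1) = zz 2 := del_zz_gt (by norm_num)
theorem f11 : del 1 (zz 1) = zz 2 := del_zz_gt (by norm_num)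
theorem f21 : del 2 (zz 1) = zz 1 + yy 1 ^ 3 * xx 2 + (xx 1 ^ 3) ^ 3 * yy 2 + zz 2 := del_zz_eq 1
theorem f31 : del 3 (zz 1) = zz 1 := del_zz_lt (by norm_num)

theorem map_pB (f : RR →ₐ[ZMod 3] RR) (a b : RR) : f (pB a b) = pB (f a) (f b) := by
  simp [pB]
theorem map_pG (f : RR →ₐ[ZMod 3] RR) (a b c : RR) : f (pG a b c) = pG (f a) (f b) (f c) := by
  simp [pG]
theorem map_pu (f : RR →ₐ[ZMod 3] RR) (a b c : RR) : f (pu a b c) = pu (f a) (f b) (f c) := by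
  simp [pu]
theorem map_pv (f : RR →ₐ[ZMod 3] RR) (a b : RR) : f (pv a b) = pv (f a) (f b) := by
  simp [pv]
theorem map_pA (f : RR →ₐ[ZMod 3] RR) (a b c d e : RR) :
    f (pA a b c d e) = pA (f a) (f b) (f c) (f d) (f e) := by
  simp [pA]
theorem map_pA' (f : RR →ₐ[ZMod 3] RR) (a b c d e : RR) :
    f (pA' a b c d e) = pA' (f a) (f b) (f c) (f d) (f e) := by
  simp [pA']

theorem sh1GG : sh 1 GG = pG (xx 1) (yy 1) (xx 2) := by
  rw [GG, map_pG, sh_xx, sh_yy, sh_xx]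
theorem sh1BB : sh 1 BB = pB (xx 1) (xx 2) := by
  rw [BB, map_pB, sh_xx, sh_xx]
theorem sh1AA : sh 1 AA = pA (xx 1) (yy 1) (xx 2) (yy 2) (zz 2) := by
  rw [AA, map_pA, sh_xx, sh_yy, sh_xx, sh_yy, sh_zz]

theorem DD_BB : DD 2 BB = 0 := by
  rw [DD_two, BB]
  simp only [map_pB, d00, d01, d10, d11, d20, d21, d30, d31]
  unfold pB
  ring

theorem DD_GG : DD 2 GG = 0 := by
  rw [DD_two, GG]
  simp only [map_pG, d00, d01, d10, d11, d20, d21, d30, d31, e00, e10, e20, e30]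
  unfold pG
  simp only [frob_RR]
  linear_combination (- xx 0 ^ 3 * xx 1 * xx 2) * three_RR

theorem DD_uu : DD 2 uu = xx 0 * sh 1 GG + xx 0 ^ 3 * sh 1 BB := by
  rw [DD_two, uu, sh1GG, sh1BB]
  simp only [map_pu, d00, d01, d10, d11, d20, d21, d30, d31, e01, e11, e21, e31]
  exact keyu _ _ _ _ _

theorem DD_AA : DD 2 AA = - (xx 0 * sh 1 (GG ^ 3)) := by
  rw [DD_two, AA, map_pow, sh1GG]
  simp only [map_pA, d00, d01, d10, d11, d20, d21, d30, d31, e00, e01, e10, e11, e20, e21, e30, e31,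
    f01, f11, f21, f31]
  exact keyA _ _ _ _ _ _ _ _

theorem DD_AA' : DD 2 AA' = xx 0 * sh 1 AA - xx 0 ^ 2 * sh 1 (GG ^ 3) := by
  rw [DD_two, AA', map_pow, sh1GG, sh1AA]
  simp only [map_pA', d00, d01, d10, d11, d20, d21, d30, d31, e00, e01, e10, e11, e20, e21, e30,
    e31, f01, f11, f21, f31]
  exact keyA' _ _ _ _ _ _ _ _

theorem DD_vv : DD 2 vv = NN 2 BB := by
  rw [DD_two, vv, NN, BB]
  simp only [map_pv, d00, d01, d10, d11, d20, d21, d30, d31]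
  rw [keyv]
  refine SN_congr fun i hi => ?_
  interval_cases i <;> norm_num [map_pB, d00, d01, d10, d11, d20, d21, d30, d31]

end Vale.Agent.P236.H68
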