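import Vale.Agent.P236.H68.Cos

/-!
Shifts, cochains on the first `n` slots, the Leibniz rule and the Cartan formula for `NN`.
-/

namespace Vale.Agent.P236.H68

open Finset

/-- shift of the slots by `m` -/
noncomputable def sh (m : ℕ) : RR →ₐ[ZMod 3] RR :=
  MvPolynomial.rename fun v : ℕ × ℕ => (v.1 + m, v.2)

theorem sh_xi (m s k : ℕ) : sh m (xi s k) = xi (s + m) k := by
  cases k with
  | zero => simp [xi]
  | succ k => simp [xi, sh]

theorem sh_zero (p : RR) : sh 0 p = p := by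
  have : sh 0 = AlgHom.id (ZMod 3) RR := by
    refine MvPolynomial.algHom_ext fun v => ?_
    simp [sh]
  rw [this]; rfl

theorem sh_sh (m n : ℕ) (p : RR) : sh m (sh n p) = sh (m + n) p := by
  have : (sh m).comp (sh n) = sh (m + n) := by
    refine MvPolynomial.algHom_ext fun v => ?_
    simp only [sh, AlgHom.comp_apply, MvPolynomial.rename_X]
    congr 2
    omega
  exact DFunLike.congr_fun this p

theorem face_sh_hi (m i s : ℕ) (g : ℕ → ℕ → RR) :
    face (m + i) g (s + m) = face i (fun t => g (t + m)) s := by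
  unfold face
  have e3 : s + m + 1 = s + 1 + m := by omega
  have e1 : (s + 1 + m < m + i) ↔ (s + 1 < i) := by omega
  have e2 : (s + 1 + m = m + i) ↔ (s + 1 = i) := by omega
  simp only [e3, e1, e2]

theorem del_sh_hi (m i : ℕ) (p : RR) : del (m + i) (sh m p) = sh m (del i p) := by
  have : (del (m + i)).comp (sh m) = (sh m).comp (del i) := by
    refine MvPolynomial.algHom_ext fun v => ?_
    have e : (MvPolynomial.X v : RR) = xi v.1 (v.2 + 1) := rfl
    rw [AlgHom.comp_apply, AlgHom.comp_apply, e, sh_xi, del_xi, del_xi, face_sh_hi]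
    have m1 : sh m (face i xi v.1 (v.2 + 1))
        = face i (fun s k => sh m (xi s k)) v.1 (v.2 + 1) :=
      map_face (sh m).toRingHom i xi v.1 (v.2 + 1)
    rw [m1]
    simp only [sh_xi]
  exact DFunLike.congr_fun this p

theorem del_sh_lo (m i : ℕ) (hi : i ≤ m) (p : RR) : del i (sh m p) = sh (m + 1) p := by
  have : (del i).comp (sh m) = sh (m + 1) := by
    refine MvPolynomial.algHom_ext fun v => ?_
    have e : (MvPolynomial.X v : RR) = xi v.1 (v.2 + 1) := rfl
    rw [AlgHom.comp_apply, e, sh_xi, sh_xi, del_xi]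
    unfold face
    have h1 : ¬ (v.1 + m + 1 < i) := by omega
    have h2 : ¬ (v.1 + m + 1 = i) := by omega
    simp only [h1, h2, if_false]
    rfl
  exact DFunLike.congr_fun this p

/-- cochains on the slots `0, ..., n - 1` -/
def IsC (n : ℕ) (p : RR) : Prop := p ∈ MvPolynomial.supported (ZMod 3) {v : ℕ × ℕ | v.1 < n}

theorem IsC.add {n : ℕ} {p q : RR} (hp : IsC n p) (hq : IsC n q) : IsC n (p + q) :=
  Subalgebra.add_mem _ hp hq

theorem IsC.mul {n : ℕ} {p q : RR} (hp : IsC n p) (hq : IsC n q) : IsC n (p * q) :=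
  Subalgebra.mul_mem _ hp hq

theorem IsC.neg {n : ℕ} {p : RR} (hp : IsC n p) : IsC n (-p) :=
  Subalgebra.neg_mem _ hp

theorem IsC.sub {n : ℕ} {p q : RR} (hp : IsC n p) (hq : IsC n q) : IsC n (p - q) :=
  Subalgebra.sub_mem _ hp hq

theorem IsC.pow {n : ℕ} {p : RR} (hp : IsC n p) (k : ℕ) : IsC n (p ^ k) :=
  Subalgebra.pow_mem _ hp k

theorem IsC.mono {m n : ℕ} {p : RR} (hp : IsC m p) (h : m ≤ n) : IsC n p := by
  have hs : {v : ℕ × ℕ | v.1 < m} ⊆ {v : ℕ × ℕ | v.1 < n} := fun v hv => lt_of_lt_of_le hv h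
  exact MvPolynomial.supported_mono (R := ZMod 3) hs hp

theorem IsC.zero (n : ℕ) : IsC n 0 := Subalgebra.zero_mem _

theorem IsC.one (n : ℕ) : IsC n 1 := Subalgebra.one_mem _

theorem IsC.xi {n s : ℕ} (h : s < n) (k : ℕ) : IsC n (xi s k) := by
  cases k with
  | zero => exact IsC.one n
  | succ k =>
    unfold IsC
    rw [MvPolynomial.supported_eq_adjoin_X]
    exact Algebra.subset_adjoin ⟨(s, k), h, rfl⟩

theorem IsC.sum {ι : Type*} {n : ℕ} (t : Finset ι) (f : ι → RR) (h : ∀ i ∈ t, IsC n (f i)) :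
    IsC n (∑ i ∈ t, f i) := Subalgebra.sum_mem _ h

theorem isC_map {m n : ℕ} (f : RR →ₐ[ZMod 3] RR) (h : ∀ s k, s < m → IsC n (f (H68.xi s (k + 1))))
    {p : RR} (hp : IsC m p) : IsC n (f p) := by
  have hp' : p ∈ Algebra.adjoin (ZMod 3) (MvPolynomial.X '' {v : ℕ × ℕ | v.1 < m}) := hp
  induction hp' using Algebra.adjoin_induction with
  | mem x hx =>
    obtain ⟨v, hv, rfl⟩ := hx
    exact h v.1 v.2 hv
  | algebraMap r => rw [AlgHom.commutes]; exact Subalgebra.algebraMap_mem _ r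
  | add x y hx hy ihx ihy => rw [map_add]; exact (ihx hx).add (ihy hy)
  | mul x y hx hy ihx ihy => rw [map_mul]; exact (ihx hx).mul (ihy hy)

theorem IsC.mulS {n : ℕ} {g h : ℕ → RR} (hg : ∀ k, IsC n (g k)) (hh : ∀ k, IsC n (h k)) (k : ℕ) :
    IsC n (mulS g h k) :=
  IsC.sum _ _ fun _ _ => ((hg _).pow _).mul (hh _)

theorem IsC.del {n : ℕ} {p : RR} (hp : IsC n p) (i : ℕ) : IsC (n + 1) (del i p) := by
  refine isC_map (H68.del i) ?_ hp
  intro s k hs
  rw [del_xi]
  unfold face
  split_ifs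
  · exact IsC.xi (by omega) _
  · exact IsC.mulS (fun k => IsC.xi (by omega) _) (fun k => IsC.xi (by omega) _) _
  · exact IsC.xi (by omega) _

theorem IsC.sh {n : ℕ} {p : RR} (hp : IsC n p) (m : ℕ) : IsC (m + n) (sh m p) := by
  refine isC_map (H68.sh m) ?_ hp
  intro s k hs
  rw [sh_xi]
  exact IsC.xi (by omega) _

theorem IsC.del_eq {n : ℕ} {p : RR} (hp : IsC n p) {i : ℕ} (hi : n < i) : H68.del i p = p := by
  have hp' : p ∈ Algebra.adjoin (ZMod 3) (MvPolynomial.X '' {v : ℕ × ℕ | v.1 < n}) := hp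
  induction hp' using Algebra.adjoin_induction with
  | mem x hx =>
    obtain ⟨v, hv, rfl⟩ := hx
    have e : (MvPolynomial.X v : RR) = H68.xi v.1 (v.2 + 1) := rfl
    rw [e, del_xi]
    unfold face
    have hv' : v.1 < n := hv
    have : v.1 + 1 < i := by omega
    simp [this]
  | algebraMap r => rw [AlgHom.commutes]
  | add x y hx hy ihx ihy => rw [map_add, ihx hx, ihy hy]
  | mul x y hx hy ihx ihy => rw [map_mul, ihx hx, ihy hy]

theorem IsC.SN {n : ℕ} {y : ℕ → RR} (h : ∀ i, IsC n (y i)) (m : ℕ) : IsC n (SN y m) := by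
  induction m with
  | zero => exact IsC.zero n
  | succ m ih =>
    exact ih.sub (((IsC.sum _ _ fun i _ => h i).mul (h m)).mul
      ((IsC.sum _ _ fun i _ => h i).add (h m)))

theorem isC_negone (n i : ℕ) : IsC n ((-1 : RR) ^ i) := ((IsC.one n).neg).pow i

theorem IsC.DD {n : ℕ} {p : RR} (hp : IsC n p) : IsC (n + 1) (DD n p) :=
  IsC.sum _ _ fun i _ => (isC_negone _ i).mul (hp.del i)

theorem IsC.NN {n : ℕ} {p : RR} (hp : IsC n p) : IsC (n + 1) (NN n p) :=
  IsC.SN (fun i => (isC_negone _ i).mul (hp.del i)) _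

theorem negone_cube (i : ℕ) : ((-1 : RR) ^ i) ^ 3 = (-1) ^ i := by
  rw [← pow_mul, mul_comm, pow_mul]; norm_num

/-- Leibniz rule -/
theorem leibniz (m n : ℕ) {p : RR} (hp : IsC m p) (q : RR) :
    DD (m + n) (p * sh m q) = DD m p * sh (m + 1) q + (-1) ^ m * (p * sh m (DD n q)) := by
  unfold DD
  have e : m + n + 2 = (m + 1) + (n + 1) := by ring
  rw [e, Finset.sum_range_add, Finset.sum_range_succ (fun i => (-1 : RR) ^ i * del i p) (m + 1),
    add_mul, Finset.sum_mul]
  have h1 : ∑ i ∈ range (m + 1), (-1 : RR) ^ i * del i (p * sh m q)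
      = ∑ i ∈ range (m + 1), (-1 : RR) ^ i * del i p * sh (m + 1) q := by
    refine Finset.sum_congr rfl fun i hi => ?_
    rw [map_mul, del_sh_lo m i (by have := Finset.mem_range.1 hi; omega)]
    ring
  have h2 : ∑ x ∈ range (n + 1), (-1 : RR) ^ (m + 1 + x) * del (m + 1 + x) (p * sh m q)
      = (-1) ^ m * (p * sh m (∑ x ∈ range (n + 1), (-1 : RR) ^ (x + 1) * del (x + 1) q)) := by
    rw [map_sum, Finset.mul_sum, Finset.mul_sum]
    refine Finset.sum_congr rfl fun i hi => ?_
    have e2 : m + 1 + i = m + (i + 1) := by ring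
    rw [map_mul, e2, hp.del_eq (by omega), del_sh_hi, map_mul, map_pow, map_neg, map_one, pow_add]
    ring
  have h3 : ∑ i ∈ range (n + 2), (-1 : RR) ^ i * del i q
      = del 0 q + ∑ x ∈ range (n + 1), (-1 : RR) ^ (x + 1) * del (x + 1) q := by
    rw [Finset.sum_range_succ' _ (n + 1)]
    simp [add_comm]
  have h4 : sh m (del 0 q) = sh (m + 1) q := by
    rw [← del_sh_hi m 0 q, add_zero, del_sh_lo m m le_rfl]
  rw [h1, h2, h3, hp.del_eq (Nat.lt_succ_self m), map_add, h4, pow_succ]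
  ring

/-- Cartan formula for cocycles -/
theorem cartan (m n : ℕ) {p q : RR} (hp : IsC m p) (dp : DD m p = 0) (dq : DD n q = 0) :
    NN (m + n) (p * sh m q) = NN m p * sh (m + 1) (q ^ 3) + (-1) ^ m * (p ^ 3 * sh m (NN n q)) := by
  have tot := leibniz m n hp q
  rw [dp, dq, map_zero, zero_mul, mul_zero, mul_zero, add_zero] at tot
  unfold DD at tot
  have e : m + n + 2 = (m + 1) + (n + 1) := by ring
  rw [e, Finset.sum_range_add] at tot
  unfold NN
  rw [e, SN_split, tot, mul_zero, sub_zero]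
  -- first part
  have h1 : SN (fun i => (-1 : RR) ^ i * del i (p * sh m q)) (m + 1)
      = SN (fun i => sh (m + 1) q * ((-1 : RR) ^ i * del i p)) (m + 1) := by
    refine SN_congr fun i hi => ?_
    rw [map_mul, del_sh_lo m i (by omega)]
    ring
  have h2 : SN (fun i => (-1 : RR) ^ i * del i p) (m + 1)
      = SN (fun i => (-1 : RR) ^ i * del i p) (m + 2) := by
    have : (∑ i ∈ range (m + 1), (-1 : RR) ^ i * del i p) + (-1) ^ (m + 1) * del (m + 1) p = 0 := by
      rw [← Finset.sum_range_succ]; exact dp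
    rw [SN.eq_2 _ (m + 1), this, mul_zero, sub_zero]
  -- second part
  have h3 : SN (fun i => (-1 : RR) ^ (m + 1 + i) * del (m + 1 + i) (p * sh m q)) (n + 1)
      = SN (fun i => ((-1 : RR) ^ m * p) * sh m ((-1 : RR) ^ (1 + i) * del (1 + i) q)) (n + 1) := by
    refine SN_congr fun i hi => ?_
    have e2 : m + 1 + i = m + (1 + i) := by ring
    rw [map_mul, e2, hp.del_eq (by omega), del_sh_hi, map_mul, map_pow, map_neg, map_one, pow_add]
    ring
  have h4 : SN (fun i => (-1 : RR) ^ i * del i q) (n + 2)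
      = SN (fun i => (-1 : RR) ^ (1 + i) * del (1 + i) q) (n + 1) := by
    have e3 : n + 2 = 1 + (n + 1) := by ring
    have dq' := dq
    unfold DD at dq'
    rw [e3, Finset.sum_range_add] at dq'
    rw [e3, SN_split, dq', mul_zero, sub_zero]
    simp [SN]
  have h5 : SN (fun i => sh m ((-1 : RR) ^ (1 + i) * del (1 + i) q)) (n + 1)
      = sh m (SN (fun i => (-1 : RR) ^ i * del i q) (n + 2)) := by
    rw [h4]
    exact (map_SN (sh m).toRingHom _ _).symm
  rw [h1, SN_smul, h2, h3, SN_smul, h5, mul_pow, negone_cube, map_pow]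
  ring

end Vale.Agent.P236.H68
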