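import Vale.Agent.P236.H68.Defs
import Vale.Agent.P236.H68.Main

/-!
Transfer from the untyped to the typed cobar complex.
-/

namespace Vale.Agent.P236.H68

open Finset

/-- The cobar differential of `P_*`. -/
noncomputable def d (n : ℕ) (p : Cob n) : Cob (n + 1) :=
  ∑ i ∈ range (n + 2), (-1) ^ i * cof n i p

/-- forget the number of tensor factors -/
noncomputable def emb (n : ℕ) : Cob n →ₐ[ZMod 3] RR :=
  (MvPolynomial.rename fun v : Fin n × ℕ => ((v.1 : ℕ), v.2) :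
    MvPolynomial (Fin n × ℕ) (ZMod 3) →ₐ[ZMod 3] RR)

theorem cob_ext {n : ℕ} {A : Type*} [Semiring A] [Algebra (ZMod 3) A]
    {f g : Cob n →ₐ[ZMod 3] A} (H : ∀ s k, f (xiT s (k + 1)) = g (xiT s (k + 1))) : f = g :=
  MvPolynomial.algHom_ext (σ := Fin n × ℕ) (R := ZMod 3) (A := A) (f := f) (g := g)
    fun v => H v.1 v.2

theorem emb_fun_inj (n : ℕ) : Function.Injective fun v : Fin n × ℕ => ((v.1 : ℕ), v.2) := by
  rintro ⟨a, k⟩ ⟨c, l⟩ h
  simp only [Prod.mk.injEq] at h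
  ext
  · exact h.1
  · exact h.2

theorem emb_inj (n : ℕ) : Function.Injective (emb n) :=
  MvPolynomial.rename_injective _ (emb_fun_inj n)

theorem emb_xiT {n : ℕ} (s : Fin n) (k : ℕ) : emb n (xiT s k) = xi s k := by
  cases k with
  | zero => simp [xiT, xi]
  | succ k => exact MvPolynomial.rename_X _ _

theorem emb_cofXi {n : ℕ} (i : ℕ) (s : Fin n) (k : ℕ) :
    emb (n + 1) (cofXi i s k) = face i xi s k := by
  unfold cofXi face
  split_ifs
  · rw [emb_xiT]; rfl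
  · rw [map_sum, mulS]
    refine Finset.sum_congr rfl fun ab _ => ?_
    rw [map_mul, map_pow, emb_xiT, emb_xiT]
    rfl
  · rw [emb_xiT]; rfl

theorem cof_xiT (n : ℕ) (i : ℕ) (s : Fin n) (k : ℕ) :
    cof n i (xiT s k) = cofXi i s k := by
  cases k with
  | zero =>
    apply emb_inj
    rw [emb_cofXi, face_zero_idx i xi (fun _ => rfl)]
    simp [xiT]
  | succ k => exact MvPolynomial.aeval_X _ _

theorem emb_cof (n : ℕ) (i : ℕ) (p : Cob n) :
    emb (n + 1) (cof n i p) = del i (emb n p) := by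
  have : (emb (n + 1)).comp (cof n i) = (del i).comp (emb n) := by
    refine cob_ext fun s k => ?_
    rw [AlgHom.comp_apply, AlgHom.comp_apply, emb_xiT, del_xi, cof_xiT, emb_cofXi]
  exact DFunLike.congr_fun this p

theorem emb_d (n : ℕ) (p : Cob n) : emb (n + 1) (d n p) = DD n (emb n p) := by
  unfold d DD
  rw [map_sum]
  refine Finset.sum_congr rfl fun i _ => ?_
  rw [map_mul, map_pow, map_neg, map_one, emb_cof]

theorem exists_emb {n : ℕ} {p : RR} (hp : IsC n p) : ∃ q : Cob n, emb n q = p := by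
  have hp' := MvPolynomial.mem_supported.1 hp
  have := MvPolynomial.exists_rename_eq_of_vars_subset_range p
    (fun v : Fin n × ℕ => ((v.1 : ℕ), v.2)) (emb_fun_inj n)
    (fun v hv => ⟨(⟨v.1, hp' hv⟩, v.2), rfl⟩)
  obtain ⟨q, hq⟩ := this
  exact ⟨q, hq⟩

theorem cup_eq {m n : ℕ} (p : Cob m) (q : Cob n) : cup p q = cupL m n p * cupR m n q := rfl

theorem cupL_xiT (m n : ℕ) (s : Fin m) (k : ℕ) :
    cupL m n (xiT s (k + 1)) = xiT (Fin.castAdd n s) (k + 1) := MvPolynomial.aeval_X _ _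

theorem cupR_xiT (m n : ℕ) (s : Fin n) (k : ℕ) :
    cupR m n (xiT s (k + 1)) = xiT (Fin.natAdd m s) (k + 1) := MvPolynomial.aeval_X _ _

theorem emb_cupL (m n : ℕ) (p : Cob m) : emb (m + n) (cupL m n p) = emb m p := by
  have : (emb (m + n)).comp (cupL m n) = emb m := by
    refine cob_ext fun s k => ?_
    rw [AlgHom.comp_apply, cupL_xiT, emb_xiT, emb_xiT]
    rfl
  exact DFunLike.congr_fun this p

theorem emb_cupR (m n : ℕ) (p : Cob n) : emb (m + n) (cupR m n p) = sh m (emb n p) := by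
  have : (emb (m + n)).comp (cupR m n) = (sh m).comp (emb n) := by
    refine cob_ext fun s k => ?_
    rw [AlgHom.comp_apply, AlgHom.comp_apply, cupR_xiT, emb_xiT, emb_xiT, sh_xi,
      Fin.val_natAdd, add_comm]
  exact DFunLike.congr_fun this p

theorem emb_cup {m n : ℕ} (p : Cob m) (q : Cob n) :
    emb (m + n) (cup p q) = emb m p * sh m (emb n q) := by
  rw [cup_eq, map_mul, emb_cupL, emb_cupR]

theorem emb_h (i : ℕ) : emb 1 (h i) = xx 0 ^ 3 ^ i := by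
  unfold h
  rw [map_pow, emb_xiT]; rfl

theorem emb_b (j : ℕ) : emb 2 (b j) = BB ^ 3 ^ j := by
  have hI : Finset.Ioo 0 3 = ({1, 2} : Finset ℕ) := by decide
  unfold b
  rw [hI, Finset.sum_pair (by norm_num)]
  have c1 : (Nat.choose 3 1 / 3 : ℕ) = 1 := by decide
  have c2 : (Nat.choose 3 2 / 3 : ℕ) = 1 := by decide
  rw [c1, c2]
  simp only [map_add, map_mul, map_pow, emb_xiT, Nat.cast_one, map_one, one_mul]
  have f0 : xi ((0 : Fin 2) : ℕ) 1 = xx 0 := rfl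
  have f1 : xi ((1 : Fin 2) : ℕ) 1 = xx 1 := rfl
  rw [f0, f1]
  have g : ∀ k : ℕ, ∀ a c : RR, (a + c) ^ 3 ^ k = a ^ 3 ^ k + c ^ 3 ^ k := by
    intro k
    induction k with
    | zero => simp
    | succ k ih => intro a c; rw [pow_succ, pow_mul, pow_mul, pow_mul, ih, frob_RR]
  unfold BB pB
  rw [g]
  norm_num [mul_pow, ← pow_mul]

theorem sh_sh_pow (m n : ℕ) (p : RR) (k : ℕ) : sh m (sh n p ^ k) = sh (m + n) p ^ k := by
  rw [map_pow, sh_sh]

theorem emb_cube (j : ℕ) : emb 6 (cup (cup (b j) (b j)) (b j))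
    = BB ^ 3 ^ j * sh 2 (BB ^ 3 ^ j) * sh 4 (BB ^ 3 ^ j) := by
  have e1 := emb_cup (cup (b j) (b j)) (b j)
  have e2 := emb_cup (b j) (b j)
  refine e1.trans ?_
  rw [e2, emb_b]

theorem emb_hcube (j : ℕ) : emb 7 (cup (h 0) (cup (cup (b j) (b j)) (b j)))
    = xx 0 * sh 1 (BB ^ 3 ^ j * sh 2 (BB ^ 3 ^ j) * sh 4 (BB ^ 3 ^ j)) := by
  have e1 := emb_cup (h 0) (cup (cup (b j) (b j)) (b j))
  refine e1.trans ?_
  have e2 : emb (2 + 2 + 2) (cup (cup (b j) (b j)) (b j))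
    = BB ^ 3 ^ j * sh 2 (BB ^ 3 ^ j) * sh 4 (BB ^ 3 ^ j) := emb_cube j
  rw [e2, emb_h, pow_zero, pow_one]

theorem emb_hsq (i : ℕ) : emb 5 (cup (h i) (cup (b (i + 1)) (b (i + 1))))
    = (xx 0 * sh 1 (BB ^ 3) * sh 3 (BB ^ 3)) ^ 3 ^ i := by
  have e1 := emb_cup (h i) (cup (b (i + 1)) (b (i + 1)))
  refine e1.trans ?_
  have e2 := emb_cup (b (i + 1)) (b (i + 1))
  rw [e2, emb_h, emb_b]
  have e3 : BB ^ 3 ^ (i + 1) = (BB ^ 3) ^ 3 ^ i := by rw [← pow_mul, pow_succ, mul_comm]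
  rw [e3, map_mul, map_pow (sh 2), sh_sh_pow, mul_pow, mul_pow, map_pow (sh 1)]
  ring

/-- `b_j ^ 3` is a coboundary for `j ≥ 2` -/
theorem cube_P (j : ℕ) (hj : 2 ≤ j) : ∃ y : Cob 5, d 5 y = cup (cup (b j) (b j)) (b j) := by
  obtain ⟨Y, hY, h⟩ := cube_R j hj
  obtain ⟨y, hy⟩ := exists_emb hY
  refine ⟨y, emb_inj 6 ?_⟩
  rw [emb_d, hy, h]
  exact (emb_cube j).symm

/-- `h_0 b_j ^ 3` is a coboundary for `j ≥ 1` -/
theorem toda_P (j : ℕ) (hj : 1 ≤ j) :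
    ∃ y : Cob 6, d 6 y = cup (h 0) (cup (cup (b j) (b j)) (b j)) := by
  obtain ⟨Y, hY, h⟩ := toda_R j hj
  obtain ⟨y, hy⟩ := exists_emb hY
  refine ⟨y, emb_inj 7 ?_⟩
  rw [emb_d, hy, h]
  exact (emb_hcube j).symm

theorem sq_P (i : ℕ) : ∃ y : Cob 4, d 4 y = cup (h i) (cup (b (i + 1)) (b (i + 1))) := by
  obtain ⟨y, hy⟩ := exists_emb (isC_Zb.pow (3 ^ i))
  refine ⟨y, emb_inj 5 ?_⟩
  rw [emb_d, hy, DD_pow, DD_Zb]
  exact (emb_hsq i).symm

theorem d_b (j : ℕ) : d 2 (b j) = 0 := by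
  apply emb_inj
  rw [emb_d, emb_b, DD_pow, DD_BB, map_zero, zero_pow (by positivity)]

theorem d_h (i : ℕ) : d 1 (h i) = 0 := by
  apply emb_inj
  rw [emb_d, emb_h, DD_pow, DD_xx, map_zero, zero_pow (by positivity)]

theorem cofA_inc (n : ℕ) (i : ℕ) (p : Cob n) :
    cofA n i (inc n p) = inc (n + 1) (cof n i p) := (exists_cofA n i).choose_spec.1 p

theorem cofA_tauT (n : ℕ) (i : ℕ) (s : Fin n) (k : ℕ) :
    cofA n i (tauT s k) = cofTau i s k := (exists_cofA n i).choose_spec.2 s k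

theorem dA_inc (n : ℕ) (p : Cob n) : dA n (inc n p) = inc (n + 1) (d n p) := by
  unfold dA d
  rw [map_sum]
  refine Finset.sum_congr rfl fun i _ => ?_
  rw [map_mul, map_pow, map_neg, map_one, cofA_inc]

theorem cube_A (j : ℕ) (hj : 2 ≤ j) : IsCob 5 (inc 6 (cup (cup (b j) (b j)) (b j))) := by
  obtain ⟨y, hy⟩ := cube_P j hj
  exact ⟨inc 5 y, by rw [dA_inc, hy]⟩

theorem toda_A (j : ℕ) (hj : 1 ≤ j) :
    IsCob 6 (inc 7 (cup (h 0) (cup (cup (b j) (b j)) (b j)))) := by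
  obtain ⟨y, hy⟩ := toda_P j hj
  exact ⟨inc 6 y, by rw [dA_inc, hy]⟩

theorem sq_A (i : ℕ) : IsCob 4 (inc 5 (cup (h i) (cup (b (i + 1)) (b (i + 1))))) := by
  obtain ⟨y, hy⟩ := sq_P i
  exact ⟨inc 4 y, by rw [dA_inc, hy]⟩

theorem dA_b (j : ℕ) : dA 2 (inc 2 (b j)) = 0 := by
  rw [dA_inc, d_b, map_zero]

theorem dA_h (i : ℕ) : dA 1 (inc 1 (h i)) = 0 := by
  rw [dA_inc, d_h, map_zero]

end Vale.Agent.P236.H68
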